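import Mathlib

/-!
# P247, block S: one- and two-forms on normed spaces
-/

set_option linter.all false

open scoped ContDiff Topology
open Set Filter

noncomputable section

namespace Vale.Agent.P247S

variable {V W Y : Type} [NormedAddCommGroup V] [NormedSpace ℝ V] [NormedAddCommGroup W]
  [NormedSpace ℝ W] [NormedAddCommGroup Y] [NormedSpace ℝ Y]

/-- alternating one-forms -/
abbrev Al1 (V : Type) [NormedAddCommGroup V] [NormedSpace ℝ V] := V [⋀^Fin 1]→L[ℝ] ℝ
/-- alternating two-forms -/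
abbrev Al2 (V : Type) [NormedAddCommGroup V] [NormedSpace ℝ V] := V [⋀^Fin 2]→L[ℝ] ℝ
/-- covectors -/
abbrev Cov (V : Type) [NormedAddCommGroup V] [NormedSpace ℝ V] := V →L[ℝ] ℝ
/-- bilinear forms -/
abbrev Bil (V : Type) [NormedAddCommGroup V] [NormedSpace ℝ V] := V →L[ℝ] V →L[ℝ] ℝ

/-- a covector as an alternating map -/
def a1 : Cov V →L[ℝ] Al1 V :=
  ((ContinuousAlternatingMap.ofSubsingletonLIE (𝕜 := ℝ) (E := V) (F := ℝ)
    (0 : Fin 1)).toContinuousLinearEquiv : Cov V →L[ℝ] Al1 V)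

theorem a1_apply (l : Cov V) (v : Fin 1 → V) : a1 l v = l (v 0) := rfl

/-- an alternating one-form as a covector -/
def b1 : Al1 V →L[ℝ] Cov V :=
  ((ContinuousAlternatingMap.ofSubsingletonLIE (𝕜 := ℝ) (E := V) (F := ℝ)
    (0 : Fin 1)).symm.toContinuousLinearEquiv : Al1 V →L[ℝ] Cov V)

theorem a1_b1 (α : Al1 V) : a1 (b1 α) = α :=
  (ContinuousAlternatingMap.ofSubsingletonLIE (𝕜 := ℝ) (E := V) (F := ℝ)
    (0 : Fin 1)).apply_symm_apply α

theorem b1_apply (α : Al1 V) (u : V) : b1 α u = α ![u] := by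
  conv_rhs => rw [← a1_b1 α]
  rfl

/-- an alternating two-form as a bilinear form -/
def bl : Al2 V →L[ℝ] Bil V :=
  (ContinuousLinearMap.compL ℝ V (Al1 V) (Cov V) b1).comp
    (ContinuousAlternatingMap.curryLeftLI (𝕜 := ℝ) (E := V) (F := ℝ)
      (n := 1)).toContinuousLinearMap

theorem bl_apply (α : Al2 V) (u v : V) : bl α u v = α ![u, v] := by
  show b1 (α.curryLeft u) v = _
  rw [b1_apply, ContinuousAlternatingMap.curryLeft_apply_apply]

/-- the alternation of a bilinear form -/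
def a2 : Bil V →L[ℝ] Al2 V :=
  (ContinuousAlternatingMap.alternatizeUncurryFinCLM ℝ V ℝ (n := 1)).comp
    (ContinuousLinearMap.compL ℝ V (Cov V) (Al1 V) a1)

theorem a2_apply (B : Bil V) (u v : V) : a2 B ![u, v] = B u v - B v u := by
  show ContinuousAlternatingMap.alternatizeUncurryFin (a1.comp B) ![u, v] = _
  rw [ContinuousAlternatingMap.alternatizeUncurryFin_apply, Fin.sum_univ_two]
  have e0 : (0 : Fin 2).removeNth ![u, v] = ![v] := by
    funext l; fin_cases l; rfl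
  have e1 : (1 : Fin 2).removeNth ![u, v] = ![u] := by
    funext l; fin_cases l; rfl
  rw [e0, e1]
  simp [a1_apply]
  ring

theorem alt2_ext {α β : Al2 V} (h : ∀ u v, α ![u, v] = β ![u, v]) : α = β := by
  ext v
  have : v = ![v 0, v 1] := by funext l; fin_cases l <;> rfl
  rw [this, h]

theorem alt2_swap (α : Al2 V) (u v : V) : α ![v, u] = - α ![u, v] := by
  have h := α.map_swap ![u, v] (i := 0) (j := 1) (by decide)
  have e : (![u, v] : Fin 2 → V) ∘ (Equiv.swap 0 1) = ![v, u] := by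
    funext l; fin_cases l <;> rfl
  rw [e] at h
  exact h

theorem alt2_self (α : Al2 V) (u : V) : α ![u, u] = 0 := by
  have := alt2_swap α u u
  linarith

theorem bl_swap (α : Al2 V) (u v : V) : bl α v u = - bl α u v := by
  rw [bl_apply, bl_apply, alt2_swap]

theorem comp2_apply (α : Al2 W) (L : V →L[ℝ] W) (u v : V) :
    α.compContinuousLinearMap L ![u, v] = α ![L u, L v] := by
  rw [ContinuousAlternatingMap.compContinuousLinearMap_apply]
  congr 1
  funext l; fin_cases l <;> rfl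

theorem comp1_eq (l : Cov W) (L : V →L[ℝ] W) :
    (a1 l).compContinuousLinearMap L = a1 (l.comp L) := by
  ext v; rfl

theorem comp2_eq (α : Al2 W) (L : V →L[ℝ] W) :
    α.compContinuousLinearMap L = a2 ((1 / 2 : ℝ) • (bl α).bilinearComp L L) := by
  apply alt2_ext
  intro u v
  rw [comp2_apply, a2_apply]
  simp only [ContinuousLinearMap.smul_apply, ContinuousLinearMap.bilinearComp_apply, smul_eq_mul,
    bl_apply]
  rw [alt2_swap α (L u) (L v)]
  ring

theorem comp_comp {k : ℕ} (α : Y [⋀^Fin k]→L[ℝ] ℝ) (L : W →L[ℝ] Y) (M : V →L[ℝ] W) :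
    (α.compContinuousLinearMap L).compContinuousLinearMap M =
      α.compContinuousLinearMap (L.comp M) := by
  ext v; rfl

theorem extDeriv_a1 {γ : V → Cov V} {z : V} (h : DifferentiableAt ℝ γ z) :
    extDeriv (fun z => a1 (γ z)) z = a2 (fderiv ℝ γ z) := by
  have h1 : fderiv ℝ (fun z => a1 (γ z)) z = a1.comp (fderiv ℝ γ z) :=
    (a1.hasFDerivAt.comp z h.hasFDerivAt).fderiv
  unfold extDeriv
  rw [h1]
  rfl

theorem cda {E F : Type} [NormedAddCommGroup E] [NormedSpace ℝ E] [NormedAddCommGroup F]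
    [NormedSpace ℝ F] {n : ℕ∞ω} (L : E →L[ℝ] F) {f : Y → E} {y : Y} (h : ContDiffAt ℝ n f y) :
    ContDiffAt ℝ n (fun y => L (f y)) y := L.contDiff.contDiffAt.comp y h

theorem fda {E F : Type} [NormedAddCommGroup E] [NormedSpace ℝ E] [NormedAddCommGroup F]
    [NormedSpace ℝ F] (L : E →L[ℝ] F) {f : Y → E} {f' : Y →L[ℝ] E} {y : Y}
    (h : HasFDerivAt f f' y) : HasFDerivAt (fun y => L (f y)) (L.comp f') y :=
  L.hasFDerivAt.comp y h

/-- `flip` as a continuous linear map -/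
def flipL (V W : Type) [NormedAddCommGroup V] [NormedSpace ℝ V] [NormedAddCommGroup W]
    [NormedSpace ℝ W] : (V →L[ℝ] W →L[ℝ] ℝ) →L[ℝ] (W →L[ℝ] V →L[ℝ] ℝ) :=
  ((ContinuousLinearMap.flipₗᵢ ℝ V W ℝ).toContinuousLinearEquiv :
    (V →L[ℝ] W →L[ℝ] ℝ) →L[ℝ] (W →L[ℝ] V →L[ℝ] ℝ))

theorem contDiffAt_bilComp {n : ℕ∞ω} {B : Y → Bil W} {L M : Y → V →L[ℝ] W} {y : Y}
    (hB : ContDiffAt ℝ n B y) (hL : ContDiffAt ℝ n L y) (hM : ContDiffAt ℝ n M y) :
    ContDiffAt ℝ n (fun y => (B y).bilinearComp (L y) (M y)) y := by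
  have h1 : ContDiffAt ℝ n (fun y => ((B y).comp (L y)).flip) y :=
    cda (E := V →L[ℝ] W →L[ℝ] ℝ) (F := W →L[ℝ] V →L[ℝ] ℝ) (flipL V W) (hB.clm_comp hL)
  exact cda (E := Bil V) (F := Bil V) (flipL V V) (h1.clm_comp hM)

theorem contDiffAt_comp2 {n : ℕ∞ω} {α : Y → Al2 W} {L : Y → V →L[ℝ] W} {y : Y}
    (hα : ContDiffAt ℝ n α y) (hL : ContDiffAt ℝ n L y) :
    ContDiffAt ℝ n (fun y => (α y).compContinuousLinearMap (L y)) y := by
  simp only [comp2_eq]
  have h := contDiffAt_bilComp (cda (E := Al2 W) (F := Bil W) bl hα) hL hL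
  exact cda (E := Bil V) (F := Al2 V) a2 (h.const_smul (1 / 2 : ℝ))

theorem minS2 : minSmoothness ℝ 2 ≤ (∞ : ℕ∞ω) := by
  simp only [minSmoothness_of_isRCLikeNormedField]
  exact WithTop.coe_le_coe.2 (le_top : ((2 : ℕ) : ℕ∞) ≤ ⊤)

/-- the exterior derivative of a one-form -/
def dd (γ : V → Cov V) (z : V) : Al2 V := a2 (fderiv ℝ γ z)

theorem dd_apply (γ : V → Cov V) (z u v : V) :
    dd γ z ![u, v] = fderiv ℝ γ z u v - fderiv ℝ γ z v u := a2_apply _ _ _

theorem contDiffAt_dd {γ : V → Cov V} {z : V} (h : ContDiffAt ℝ ∞ γ z) :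
    ContDiffAt ℝ ∞ (dd γ) z :=
  cda (E := Bil V) (F := Al2 V) a2 (h.fderiv_right (m := ∞) (by simp))

theorem dd_congr {γ γ' : V → Cov V} {z : V} (h : γ =ᶠ[𝓝 z] γ') : dd γ z = dd γ' z := by
  unfold dd; rw [h.fderiv_eq]

theorem dd_sub {γ γ' : V → Cov V} {z : V} (h : DifferentiableAt ℝ γ z)
    (h' : DifferentiableAt ℝ γ' z) : dd (fun z => γ z - γ' z) z = dd γ z - dd γ' z := by
  unfold dd; rw [fderiv_fun_sub h h']
  apply alt2_ext; intro u v
  simp only [ContinuousAlternatingMap.sub_apply, a2_apply, ContinuousLinearMap.sub_apply]; ring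

theorem dd_const_smul {γ : V → Cov V} {z : V} (h : DifferentiableAt ℝ γ z) (c : ℝ) :
    dd (fun z => c • γ z) z = c • dd γ z := by
  unfold dd; rw [fderiv_fun_const_smul h, map_smul]

theorem dd_smul {γ : V → Cov V} {f : V → ℝ} {z : V} (hf : DifferentiableAt ℝ f z)
    (h : DifferentiableAt ℝ γ z) :
    dd (fun z => f z • γ z) z = f z • dd γ z + a2 ((fderiv ℝ f z).smulRight (γ z)) := by
  unfold dd; rw [fderiv_fun_smul hf h, map_add, map_smul]

/-- `d` commutes with pull-back -/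
theorem dd_pull {γ : W → Cov W} {f : V → W} {z : V} (hγ : DifferentiableAt ℝ γ (f z))
    (hf : ContDiffAt ℝ ∞ f z) :
    extDeriv (fun z => a1 ((γ (f z)).comp (fderiv ℝ f z))) z =
      (dd γ (f z)).compContinuousLinearMap (fderiv ℝ f z) := by
  have h1 : DifferentiableAt ℝ (fun w => a1 (γ w)) (f z) := a1.differentiableAt.comp _ hγ
  have h2 := extDeriv_pullback (r := ∞) h1 hf minS2
  rw [extDeriv_a1 hγ] at h2
  simp only [comp1_eq] at h2
  exact h2

theorem dd_pull' {γ : W → Cov W} {f : V → W} {z : V} (hγ : DifferentiableAt ℝ γ (f z))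
    (hf : ContDiffAt ℝ ∞ f z) :
    dd (fun z => (γ (f z)).comp (fderiv ℝ f z)) z =
      (dd γ (f z)).compContinuousLinearMap (fderiv ℝ f z) := by
  rw [← dd_pull hγ hf, extDeriv_a1]
  · rfl
  · have h1 : DifferentiableAt ℝ f z := hf.differentiableAt (by simp)
    have h2 : DifferentiableAt ℝ (fderiv ℝ f) z :=
      (hf.fderiv_right (m := ∞) (by simp)).differentiableAt (by simp)
    exact (hγ.comp z h1).clm_comp h2

/-- closedness in terms of the bilinear form -/
theorem closed_bl {α : V → Al2 V} {z : V} (h : DifferentiableAt ℝ α z) (hc : extDeriv α z = 0)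
    (a b c : V) : fderiv ℝ (fun z => bl (α z)) z a b c - fderiv ℝ (fun z => bl (α z)) z b a c +
      fderiv ℝ (fun z => bl (α z)) z c a b = 0 := by
  have h1 : fderiv ℝ (fun z => bl (α z)) z = bl.comp (fderiv ℝ α z) :=
    (fda (E := Al2 V) (F := Bil V) bl h.hasFDerivAt).fderiv
  have h2 : extDeriv α z ![a, b, c] = 0 := by rw [hc]; rfl
  unfold extDeriv at h2
  rw [ContinuousAlternatingMap.alternatizeUncurryFin_apply, Fin.sum_univ_three] at h2
  have e0 : (0 : Fin 3).removeNth ![a, b, c] = ![b, c] := by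
    funext l; fin_cases l <;> rfl
  have e1 : (1 : Fin 3).removeNth ![a, b, c] = ![a, c] := by
    funext l; fin_cases l <;> rfl
  have e2 : (2 : Fin 3).removeNth ![a, b, c] = ![a, b] := by
    funext l; fin_cases l <;> rfl
  rw [e0, e1, e2] at h2
  rw [h1]
  simp only [ContinuousLinearMap.comp_apply, bl_apply]
  simp at h2
  linarith

end Vale.Agent.P247S
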