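import Vale.Agent.P247S.A0
import Vale.Agent.P204.Bdl.B2

/-!
# P247, block S: the relative Poincaré lemma
-/

set_option linter.all false

open scoped ContDiff Topology
open Set Filter MeasureTheory

noncomputable section

namespace Vale.Agent.P247S
open Vale.Agent.P204.GX

variable {V : Type} [NormedAddCommGroup V] [NormedSpace ℝ V] [FiniteDimensional ℝ V]

/-- the integrand of the homotopy operator -/
def hI (P N : V →L[ℝ] V) (B : V → Bil V) (t : ℝ) (z : V) : Cov V :=
  (B ((P + t • N) z) (N z)).comp (P + t • N)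

omit [FiniteDimensional ℝ V] in
theorem hI_smooth (P N : V →L[ℝ] V) {B : V → Bil V} (hB : ContDiff ℝ ∞ B) :
    ContDiff ℝ ∞ (Function.uncurry (hI P N B)) := by
  have h1 : ContDiff ℝ ∞ (fun p : ℝ × V => P + p.1 • N) :=
    contDiff_const.add (contDiff_fst.smul contDiff_const)
  have h2 : ContDiff ℝ ∞ (fun p : ℝ × V => (P + p.1 • N) p.2) := h1.clm_apply contDiff_snd
  have h3 : ContDiff ℝ ∞ (fun p : ℝ × V => N p.2) := N.contDiff.comp contDiff_snd
  exact ((hB.comp h2).clm_apply h3).clm_comp h1

omit [FiniteDimensional ℝ V] in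
theorem hI_fderiv (P N : V →L[ℝ] V) {B : V → Bil V} (hB : ContDiff ℝ ∞ B) (t : ℝ) (z a b : V) :
    fderiv ℝ (hI P N B t) z a b =
      fderiv ℝ B ((P + t • N) z) ((P + t • N) a) (N z) ((P + t • N) b) +
        B ((P + t • N) z) (N a) ((P + t • N) b) := by
  set A := P + t • N with hA
  have h1 : HasFDerivAt (fun z => B (A z)) ((fderiv ℝ B (A z)).comp A) z :=
    (hB.differentiable (by simp) (A z)).hasFDerivAt.comp z A.hasFDerivAt
  have h2 := h1.clm_apply N.hasFDerivAt
  have h3 := h2.clm_comp (hasFDerivAt_const A z)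
  have h4 : hI P N B t = fun z => (B (A z) (N z)).comp A := rfl
  rw [h4, h3.fderiv]
  simp
  ring

/-- the relative Poincaré lemma -/
theorem rel_poincare (P N : V →L[ℝ] V) (hPN : ∀ z, P z + N z = z) {α : V → Al2 V}
    (hα : ContDiff ℝ ∞ α) {O : Set V} (hO : ∀ z ∈ O, ∀ t ∈ Icc (0 : ℝ) 1, P z + t • N z ∈ O)
    (hc : ∀ z ∈ O, extDeriv α z = 0) :
    ∃ γ : V → Cov V, ContDiff ℝ ∞ γ ∧ (∀ z, N z = 0 → γ z = 0) ∧
      ∀ z ∈ O, dd γ z = α z - (α (P z)).compContinuousLinearMap P := by
  set B : V → Bil V := fun z => bl (α z) with hBdef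
  have hB : ContDiff ℝ ∞ B := by
    rw [contDiff_iff_contDiffAt]
    exact fun z => cda (E := Al2 V) (F := Bil V) bl hα.contDiffAt
  set ν : Measure ℝ := volume.restrict (Icc (0 : ℝ) 1) with hν
  have hνK : ν (Icc (0 : ℝ) 1)ᶜ = 0 := by
    rw [hν, Measure.restrict_apply measurableSet_Icc.compl]
    simp only [compl_inter_self, measure_empty]
  have hcd := hI_smooth P N hB
  refine ⟨fun z => ∫ t, hI P N B t z ∂ν, contDiff_integral_param ν isCompact_Icc hνK hcd, ?_, ?_⟩
  · intro z hz
    have : ∀ t, hI P N B t z = 0 := by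
      intro t
      unfold hI
      rw [hz, map_zero, ContinuousLinearMap.zero_comp]
    simp only [this, integral_zero]
  · intro z hz
    have h3 := hasFDerivAt_integral_param ν isCompact_Icc hνK (f := hI P N B) hcd z
    have h4 : Continuous fun t => fderiv ℝ (hI P N B t) z :=
      ((contDiff_fderiv_snd (E := Cov V) hcd).continuous.uncurry_right z)
    have hint : ∀ {E : Type} [NormedAddCommGroup E] [NormedSpace ℝ E] {g : ℝ → E},
        Continuous g → Integrable g ν := by
      intro E _ _ g hg
      exact hg.continuousOn.integrableOn_compact isCompact_Icc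
    have h5 : ∀ a b, fderiv ℝ (fun z => ∫ t, hI P N B t z ∂ν) z a b =
        ∫ t, fderiv ℝ (hI P N B t) z a b ∂ν := by
      intro a b
      rw [h3.fderiv, ContinuousLinearMap.integral_apply (hint h4),
        ContinuousLinearMap.integral_apply (hint (h4.clm_apply continuous_const))]
    apply alt2_ext
    intro a b
    have hca : ∀ a b, Continuous fun t => fderiv ℝ (hI P N B t) z a b := fun a b =>
      (h4.clm_apply continuous_const).clm_apply continuous_const
    rw [dd_apply, h5, h5, ← integral_sub (hint (hca a b)) (hint (hca b a))]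
    set G : ℝ → ℝ := fun t => B ((P + t • N) z) ((P + t • N) a) ((P + t • N) b) with hG
    have hA : ∀ (t : ℝ) (u : V), HasDerivAt (fun s : ℝ => (P + s • N) u) (N u) t := by
      intro t u
      have h1 : (fun s : ℝ => (P + s • N) u) = fun s => P u + s • N u := by
        funext s; simp
      rw [h1]
      simpa using ((hasDerivAt_id t).smul_const (N u)).const_add (P u)
    have hGd : ∀ t ∈ Icc (0 : ℝ) 1, HasDerivAt G
        (fderiv ℝ (hI P N B t) z a b - fderiv ℝ (hI P N B t) z b a) t := by
      intro t ht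
      have h6 : HasDerivAt (fun s : ℝ => B ((P + s • N) z))
          (fderiv ℝ B ((P + t • N) z) (N z)) t :=
        HasFDerivAt.comp_hasDerivAt (l := B) (f := fun s : ℝ => (P + s • N) z) t
          (hB.differentiable (by simp) _).hasFDerivAt (hA t z)
      have h7 := (h6.clm_apply (hA t a)).clm_apply (hA t b)
      refine h7.congr_deriv ?_
      rw [hI_fderiv P N hB, hI_fderiv P N hB]
      have hmem : (P + t • N) z ∈ O := by simpa using hO z hz t ht
      have h8 := closed_bl (hα.differentiable (by simp) _) (hc _ hmem) (N z) ((P + t • N) a)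
        ((P + t • N) b)
      have h9 := bl_swap (α ((P + t • N) z)) (N b) ((P + t • N) a)
      simp only [ContinuousLinearMap.add_apply (fderiv ℝ B _ _ _)]
      simp only [hBdef] at h8 h9 ⊢
      linarith
    have hI' : ∫ t, (fderiv ℝ (hI P N B t) z a b - fderiv ℝ (hI P N B t) z b a) ∂ν = G 1 - G 0 := by
      rw [hν, integral_Icc_eq_integral_Ioc, ← intervalIntegral.integral_of_le zero_le_one]
      refine intervalIntegral.integral_eq_sub_of_hasDerivAt (fun t ht => hGd t ?_) ?_
      · simpa using ht
      · exact ((hca a b).sub (hca b a)).intervalIntegrable _ _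
    rw [hI', ContinuousAlternatingMap.sub_apply, comp2_apply]
    have e1 : ∀ u, (P + (1 : ℝ) • N) u = u := by intro u; simp [hPN]
    have e0 : ∀ u, (P + (0 : ℝ) • N) u = P u := by intro u; simp
    simp only [hG, hBdef, bl_apply, e1, e0]

end Vale.Agent.P247S
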