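import Vale.Agent.P247S.A0
import Vale.Agent.P247X.Spec
import Vale.Agent.P247.SCY.FL0
import Vale.Agent.P247.SCY.MFD8

/-!
# P247, block S: pull-backs of forms by vector valued maps, openness of positivity
-/

set_option linter.all false

open scoped ContDiff Topology Manifold
open Set Filter

noncomputable section

namespace Vale.Agent.P247S
open Vale.Agent.P247.SCY Vale.Agent.P247.SCY.HS
open Vale.Agent.P204.Mfd (dsym dch mdiff_symm mdiff_chart)

variable {V : Type} [NormedAddCommGroup V] [NormedSpace ℝ V]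
variable {X : Type} [TopologicalSpace X] [ChartedSpace HS.E4 X]

/-- the differential of a vector valued function -/
def dF (Ψ : X → V) (y : X) : HS.E4 →L[ℝ] V := mfderiv (𝓡 4) 𝓘(ℝ, V) Ψ y

/-- the differential of a map from a vector space -/
def dG (Φ : V → X) (z : V) : V →L[ℝ] HS.E4 := mfderiv 𝓘(ℝ, V) (𝓡 4) Φ z

/-- pull-back of a one-form -/
def pb1 (Ψ : X → V) (γ : V → Cov V) : Form X 1 :=
  fun y => (a1 ((γ (Ψ y)).comp (dF Ψ y)) : Al1 HS.E4)

/-- pull-back of a two-form -/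
def pb2 (Ψ : X → V) (α : V → Al2 V) : Form X 2 :=
  fun y => ((α (Ψ y)).compContinuousLinearMap (dF Ψ y) : Al2 HS.E4)

/-- pull-back of a two-form to a vector space -/
def pv2 (Φ : V → X) (α : Form X 2) : V → Al2 V :=
  fun z => (bx α (Φ z)).compContinuousLinearMap (dG Φ z)

open Classical in
/-- extension by zero -/
def cutF {k : ℕ} (U : Set X) (α : Form X k) : Form X k := fun y => if y ∈ U then α y else 0

theorem cutF_mem {k : ℕ} {U : Set X} (α : Form X k) {y : X} (h : y ∈ U) : cutF U α y = α y := by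
  unfold cutF; rw [if_pos h]

theorem cutF_not {k : ℕ} {U : Set X} (α : Form X k) {y : X} (h : y ∉ U) : cutF U α y = 0 := by
  unfold cutF; rw [if_neg h]

theorem bx_pb2 (Ψ : X → V) (α : V → Al2 V) (y : X) :
    bx (pb2 Ψ α) y = (α (Ψ y)).compContinuousLinearMap (dF Ψ y) := rfl

theorem loc2 (e : OpenPartialHomeomorph X HS.E4) (α : Form X 2) (z : HS.E4) :
    loc e α z = (bx α (e.symm z)).compContinuousLinearMap (dsym e z) := rfl

theorem loc_congr {k : ℕ} (e : OpenPartialHomeomorph X HS.E4) {α β : Form X k} {z : HS.E4}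
    (h : α (e.symm z) = β (e.symm z)) : loc e α z = loc e β z := by
  unfold loc; rw [h]

theorem loc_zero {k : ℕ} (e : OpenPartialHomeomorph X HS.E4) {α : Form X k} {z : HS.E4}
    (h : α (e.symm z) = 0) : loc e α z = 0 := by
  unfold loc; rw [h]; ext v; rfl

variable [IsManifold (𝓡 4) ∞ X]

theorem symm_smooth {e : OpenPartialHomeomorph X HS.E4} (he : e ∈ atlas HS.E4 X) {z : HS.E4}
    (hz : z ∈ e.target) : ContMDiffAt (𝓡 4) (𝓡 4) ∞ e.symm z :=
  (contMDiffOn_symm_of_mem_maximalAtlas (IsManifold.subset_maximalAtlas he) z hz).contMDiffAt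
    (e.open_target.mem_nhds hz)

theorem chart_smooth {e : OpenPartialHomeomorph X HS.E4} (he : e ∈ atlas HS.E4 X) {y : X}
    (hy : y ∈ e.source) : ContMDiffAt (𝓡 4) (𝓡 4) ∞ e y :=
  (contMDiffOn_of_mem_maximalAtlas (IsManifold.subset_maximalAtlas he) y hy).contMDiffAt
    (e.open_source.mem_nhds hy)

theorem cd_symm {Ψ : X → V} {e : OpenPartialHomeomorph X HS.E4} (he : e ∈ atlas HS.E4 X)
    {z : HS.E4} (hz : z ∈ e.target) (h : ContMDiffAt (𝓡 4) 𝓘(ℝ, V) ∞ Ψ (e.symm z)) :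
    ContDiffAt ℝ ∞ (fun z => Ψ (e.symm z)) z :=
  contMDiffAt_iff_contDiffAt.1 (h.comp z (symm_smooth he hz))

theorem cd_chart {Φ : V → X} {e : OpenPartialHomeomorph X HS.E4} (he : e ∈ atlas HS.E4 X)
    {z : V} (hz : Φ z ∈ e.source) (h : ContMDiffAt 𝓘(ℝ, V) (𝓡 4) ∞ Φ z) :
    ContDiffAt ℝ ∞ (fun z => e (Φ z)) z :=
  contMDiffAt_iff_contDiffAt.1 ((chart_smooth he hz).comp z h)

theorem fderiv_symm {Ψ : X → V} {e : OpenPartialHomeomorph X HS.E4} (he : e ∈ atlas HS.E4 X)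
    {z : HS.E4} (hz : z ∈ e.target) (h : MDifferentiableAt (𝓡 4) 𝓘(ℝ, V) Ψ (e.symm z)) :
    fderiv ℝ (fun z => Ψ (e.symm z)) z = (dF Ψ (e.symm z)).comp (dsym e z) := by
  have h1 := mfderiv_comp (I := 𝓡 4) (I' := 𝓡 4) (I'' := 𝓘(ℝ, V)) z h (mdiff_symm he hz)
  rw [mfderiv_eq_fderiv] at h1
  exact h1

theorem fderiv_chart {Φ : V → X} {e : OpenPartialHomeomorph X HS.E4} (he : e ∈ atlas HS.E4 X)
    {z : V} (hz : Φ z ∈ e.source) (h : MDifferentiableAt 𝓘(ℝ, V) (𝓡 4) Φ z) :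
    fderiv ℝ (fun z => e (Φ z)) z = (dch e (Φ z)).comp (dG Φ z) := by
  have h1 := mfderiv_comp (I := 𝓘(ℝ, V)) (I' := 𝓡 4) (I'' := 𝓡 4) z (mdiff_chart he hz) h
  rw [mfderiv_eq_fderiv] at h1
  exact h1

theorem dsym_dch' {e : OpenPartialHomeomorph X HS.E4} (he : e ∈ atlas HS.E4 X) {y : X}
    (hy : y ∈ e.source) (u : HS.E4) : dsym e (e y) (dch e y u) = u := by
  have := dsym_dch he (e.map_source hy) u
  rwa [e.left_inv hy] at this

theorem dch_dsym' {e : OpenPartialHomeomorph X HS.E4} (he : e ∈ atlas HS.E4 X) {y : X}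
    (hy : y ∈ e.source) (u : HS.E4) : dch e y (dsym e (e y) u) = u := by
  have := dch_dsym he (e.map_source hy) u
  rwa [e.left_inv hy] at this

theorem loc_pb1 {Ψ : X → V} (γ : V → Cov V) {e : OpenPartialHomeomorph X HS.E4}
    (he : e ∈ atlas HS.E4 X) {z : HS.E4} (hz : z ∈ e.target)
    (h : MDifferentiableAt (𝓡 4) 𝓘(ℝ, V) Ψ (e.symm z)) :
    loc e (pb1 Ψ γ) z = a1 ((γ (Ψ (e.symm z))).comp (fderiv ℝ (fun z => Ψ (e.symm z)) z)) := by
  rw [fderiv_symm he hz h]; ext v; rfl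

theorem loc_pb2 {Ψ : X → V} (α : V → Al2 V) {e : OpenPartialHomeomorph X HS.E4}
    (he : e ∈ atlas HS.E4 X) {z : HS.E4} (hz : z ∈ e.target)
    (h : MDifferentiableAt (𝓡 4) 𝓘(ℝ, V) Ψ (e.symm z)) :
    loc e (pb2 Ψ α) z =
      (α (Ψ (e.symm z))).compContinuousLinearMap (fderiv ℝ (fun z => Ψ (e.symm z)) z) := by
  rw [fderiv_symm he hz h]; ext v; rfl

/-- the pull-back to a vector space in a chart -/
theorem pv2_chart {Φ : V → X} (α : Form X 2) {e : OpenPartialHomeomorph X HS.E4}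
    (he : e ∈ atlas HS.E4 X) {z : V} (hz : Φ z ∈ e.source)
    (h : MDifferentiableAt 𝓘(ℝ, V) (𝓡 4) Φ z) :
    pv2 Φ α z = (loc e α (e (Φ z))).compContinuousLinearMap (fderiv ℝ (fun z => e (Φ z)) z) := by
  rw [fderiv_chart he hz h, loc2, e.left_inv hz, comp_comp]
  unfold pv2
  congr 1
  ext1 u
  exact (dsym_dch' he hz _).symm

theorem pv2_smooth {Φ : V → X} {α : Form X 2} (hα : Smooth α) (hc : Closed α) {O : Set V}
    (hO : IsOpen O) (h : ContMDiffOn 𝓘(ℝ, V) (𝓡 4) ∞ Φ O) {z : V} (hz : z ∈ O) :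
    ContDiffAt ℝ ∞ (pv2 Φ α) z ∧ extDeriv (pv2 Φ α) z = 0 := by
  set e := chartAt HS.E4 (Φ z)
  have he : e ∈ atlas HS.E4 X := chart_mem_atlas _ _
  have hs : Φ z ∈ e.source := mem_chart_source _ _
  have hΦ := (h z hz).contMDiffAt (hO.mem_nhds hz)
  have h1 : pv2 Φ α =ᶠ[𝓝 z] fun z =>
      (loc e α (e (Φ z))).compContinuousLinearMap (fderiv ℝ (fun z => e (Φ z)) z) := by
    filter_upwards [hO.mem_nhds hz, hΦ.continuousAt.preimage_mem_nhds (e.open_source.mem_nhds hs)]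
      with z' h1 h2
    exact pv2_chart α he h2 (((h z' h1).contMDiffAt (hO.mem_nhds h1)).mdifferentiableAt (by simp))
  have h2 := cd_chart he hs hΦ
  have h3 : ContDiffAt ℝ ∞ (loc e α) (e (Φ z)) :=
    (hα e he _ (e.map_source hs)).contDiffAt (e.open_target.mem_nhds (e.map_source hs))
  refine ⟨ContDiffAt.congr_of_eventuallyEq ?_ h1, ?_⟩
  · exact contDiffAt_comp2 (ContDiffAt.comp (g := loc e α) (f := fun z => e (Φ z)) z h3 h2)
      (h2.fderiv_right (m := ∞) (by simp))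
  · rw [h1.extDeriv_eq, extDeriv_pullback (r := ∞) (f := fun z => e (Φ z))
      (h3.differentiableAt (by simp)) h2 minS2, hc e he _ (e.map_source hs)]
    ext v; rfl

/-- compactly supported exact forms from a vector valued map -/
theorem pb_exact {U K : Set X} (hU : IsOpen U) (hK : IsClosed K) (hKU : K ⊆ U) {Ψ : X → V}
    (hΨ : ContMDiffOn (𝓡 4) 𝓘(ℝ, V) ∞ Ψ U) {γ : V → Cov V}
    (hγ : ∀ y ∈ U, ContDiffAt ℝ ∞ γ (Ψ y)) (h0 : ∀ y ∈ U, y ∉ K → γ =ᶠ[𝓝 (Ψ y)] fun _ => 0) :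
    Smooth (cutF U (pb2 Ψ (dd γ))) ∧ Exact (cutF U (pb2 Ψ (dd γ))) := by
  have hA : ∀ y ∈ U, ContMDiffAt (𝓡 4) 𝓘(ℝ, V) ∞ Ψ y := fun y hy =>
    (hΨ y hy).contMDiffAt (hU.mem_nhds hy)
  have z1 : ∀ y, y ∉ K → cutF U (pb1 Ψ γ) y = 0 := by
    intro y hy
    by_cases h : y ∈ U
    · rw [cutF_mem _ h]
      unfold pb1
      rw [(h0 y h hy).self_of_nhds]
      ext v; rfl
    · exact cutF_not _ h
  have z2 : ∀ y, y ∉ K → cutF U (pb2 Ψ (dd γ)) y = 0 := by
    intro y hy
    by_cases h : y ∈ U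
    · rw [cutF_mem _ h]
      unfold pb2
      rw [dd_congr (h0 y h hy)]
      unfold dd
      rw [fderiv_fun_const]
      ext v
      simp
      rfl
    · exact cutF_not _ h
  have key : ∀ e ∈ atlas HS.E4 X, ∀ z ∈ e.target, ContDiffAt ℝ ∞ (loc e (cutF U (pb1 Ψ γ))) z ∧
      ContDiffAt ℝ ∞ (loc e (cutF U (pb2 Ψ (dd γ)))) z ∧
      extDeriv (loc e (cutF U (pb1 Ψ γ))) z = loc e (cutF U (pb2 Ψ (dd γ))) z := by
    intro e he z hz
    have hcont : ContinuousAt e.symm z := e.continuousAt_symm hz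
    by_cases h : e.symm z ∈ U
    · have hn : ∀ᶠ z' in 𝓝 z, z' ∈ e.target ∧ e.symm z' ∈ U :=
        Filter.Eventually.and (e.open_target.mem_nhds hz)
          (hcont.preimage_mem_nhds (hU.mem_nhds h))
      have e1 : loc e (cutF U (pb1 Ψ γ)) =ᶠ[𝓝 z] fun z =>
          a1 ((γ (Ψ (e.symm z))).comp (fderiv ℝ (fun z => Ψ (e.symm z)) z)) := by
        filter_upwards [hn] with z' h'
        rw [loc_congr e (cutF_mem _ h'.2),
          loc_pb1 γ he h'.1 ((hA _ h'.2).mdifferentiableAt (by simp))]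
      have e2 : loc e (cutF U (pb2 Ψ (dd γ))) =ᶠ[𝓝 z] fun z =>
          (dd γ (Ψ (e.symm z))).compContinuousLinearMap
            (fderiv ℝ (fun z => Ψ (e.symm z)) z) := by
        filter_upwards [hn] with z' h'
        rw [loc_congr e (cutF_mem _ h'.2),
          loc_pb2 _ he h'.1 ((hA _ h'.2).mdifferentiableAt (by simp))]
      have h2 := cd_symm he hz (hA _ h)
      have h3 := h2.fderiv_right (m := ∞) (by simp)
      refine ⟨ContDiffAt.congr_of_eventuallyEq ?_ e1, ContDiffAt.congr_of_eventuallyEq ?_ e2, ?_⟩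
      · exact cda a1 (((hγ _ h).comp z h2).clm_comp h3)
      · exact contDiffAt_comp2 (ContDiffAt.comp (g := dd γ) (f := fun z => Ψ (e.symm z)) z
          (contDiffAt_dd (hγ _ h)) h2) h3
      · rw [e1.extDeriv_eq, e2.self_of_nhds]
        exact dd_pull (f := fun z => Ψ (e.symm z)) ((hγ _ h).differentiableAt (by simp)) h2
    · have hn : ∀ᶠ z' in 𝓝 z, e.symm z' ∉ K :=
        hcont.preimage_mem_nhds (hK.isOpen_compl.mem_nhds fun hh => h (hKU hh))
      have e1 : loc e (cutF U (pb1 Ψ γ)) =ᶠ[𝓝 z] fun _ => 0 := by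
        filter_upwards [hn] with z' h'
        exact loc_zero e (z1 _ h')
      have e2 : loc e (cutF U (pb2 Ψ (dd γ))) =ᶠ[𝓝 z] fun _ => 0 := by
        filter_upwards [hn] with z' h'
        exact loc_zero e (z2 _ h')
      refine ⟨contDiffAt_const.congr_of_eventuallyEq e1, contDiffAt_const.congr_of_eventuallyEq e2,
        ?_⟩
      rw [e1.extDeriv_eq, e2.self_of_nhds]
      exact extDeriv_zero1 z
  exact ⟨fun e he z hz => (key e he z hz).2.1.contDiffWithinAt,
    cutF U (pb1 Ψ γ), fun e he z hz => (key e he z hz).1.contDiffWithinAt,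
    fun e he z hz => (key e he z hz).2.2⟩

/-! ### positivity -/

/-- the square of a two-form at a point -/
def qf (μ : Form X 4) (y : X) (A : Al2 HS.E4) : ℝ := wedge A A bas / ax μ y bas

omit [IsManifold (𝓡 4) ∞ X] in
theorem qf_smul (μ : Form X 4) (y : X) (c : ℝ) (A : Al2 HS.E4) :
    qf μ y (c • A) = c ^ 2 * qf μ y A := by
  unfold qf wedge
  simp only [ContinuousAlternatingMap.smul_apply, smul_eq_mul]
  ring

omit [IsManifold (𝓡 4) ∞ X] in
theorem posDef_iff (μ : Form X 4) (w : Fin 3 → Form X 2) (y : X) : (Qm μ w y).PosDef ↔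
    ∀ c : Fin 3 → ℝ, c ≠ 0 → 0 < qf μ y (∑ i, c i • bx (w i) y) := by
  have key : ∀ c : Fin 3 → ℝ, star c ⬝ᵥ (Qm μ w y).mulVec c =
      (1 / 2) * qf μ y (∑ i, c i • bx (w i) y) := by
    intro c
    rw [qm_form]
    have e : ∀ α β : Form X 2, quot μ α β y = wedge (bx α y) (bx β y) bas / ax μ y bas :=
      fun α β => rfl
    simp only [e, qf, Fin.sum_univ_three, wedge, ContinuousAlternatingMap.add_apply,
      ContinuousAlternatingMap.smul_apply, smul_eq_mul]
    ring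
  constructor
  · intro h c hc
    have := h.dotProduct_mulVec_pos hc
    rw [key] at this
    linarith
  · intro h
    refine Matrix.PosDef.of_dotProduct_mulVec_pos (qm_hermitian μ w y) fun c hc => ?_
    rw [key]
    have := h c hc
    linarith

theorem qf_chart (μ : Form X 4) {e : OpenPartialHomeomorph X HS.E4} (he : e ∈ atlas HS.E4 X)
    {z : HS.E4} (hz : z ∈ e.target) (A : Al2 HS.E4) :
    qf μ (e.symm z) A = wedge (A.compContinuousLinearMap (dsym e z))
      (A.compContinuousLinearMap (dsym e z)) bas / loc e μ z bas := by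
  have h1 := (mat_dsym he hz).2.2
  have h2 := top_comp (ax μ (e.symm z)) ((dsym e z).comp (P204.Mfd.toE : P204.T4.V4 →L[ℝ] HS.E4))
  have h3 : loc e μ z bas = P204.T4.det4 (mat (dsym e z)) * ax μ (e.symm z) bas := by
    rw [loc_bas]
    refine Eq.trans ?_ h2
    congr 1
  rw [h3, wedge_eq, cE_comp_E, P204.T4.Q_pull, qf, wedge_eq, mul_div_mul_left _ _ h1]

theorem qf_open {μ : Form X 4} (hμ : Volume μ) {T : Type} [TopologicalSpace T]
    (G : X → T → Al2 HS.E4) {y : X} {t : T}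
    (hG : ContinuousAt (fun p : HS.E4 × T => (G ((chartAt HS.E4 y).symm p.1) p.2).compContinuousLinearMap
      (dsym (chartAt HS.E4 y) p.1)) (chartAt HS.E4 y y, t)) (h : 0 < qf μ y (G y t)) :
    ∀ᶠ p : X × T in 𝓝 (y, t), 0 < qf μ p.1 (G p.1 p.2) := by
  set e := chartAt HS.E4 y
  have he : e ∈ atlas HS.E4 X := chart_mem_atlas _ _
  have hs : y ∈ e.source := mem_chart_source _ _
  set H : HS.E4 × T → Al2 HS.E4 := fun p => (G (e.symm p.1) p.2).compContinuousLinearMap
      (dsym e p.1) with hH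
  have hm : ContinuousAt (fun p : HS.E4 × T => loc e μ p.1 bas) (e y, t) := by
    have h1 : ContinuousAt (loc e μ) (e y) :=
      ((hμ.smooth e he _ (e.map_source hs)).contDiffAt
        (e.open_target.mem_nhds (e.map_source hs))).continuousAt
    exact (ContinuousAlternatingMap.apply ℝ HS.E4 ℝ bas).continuous.continuousAt.comp
      (ContinuousAt.comp (f := fun p : HS.E4 × T => p.1) (x := (e y, t)) h1 continuousAt_fst)
  have hev : ∀ v : Fin 2 → HS.E4, ContinuousAt (fun p => H p v) (e y, t) := fun v =>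
    (ContinuousAlternatingMap.apply ℝ HS.E4 ℝ v).continuous.continuousAt.comp hG
  have hw : ContinuousAt (fun p => wedge (H p) (H p) bas) (e y, t) := by
    unfold wedge
    exact ((((((hev _).mul (hev _)).sub ((hev _).mul (hev _))).add ((hev _).mul (hev _))).add
      ((hev _).mul (hev _))).sub ((hev _).mul (hev _))).add ((hev _).mul (hev _))
  have hq : ∀ z ∈ e.target, ∀ s, qf μ (e.symm z) (G (e.symm z) s) =
      wedge (H (z, s)) (H (z, s)) bas / loc e μ z bas := fun z hz s => qf_chart μ he hz _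
  have h0 : 0 < wedge (H (e y, t)) (H (e y, t)) bas / loc e μ (e y) bas := by
    rw [← hq _ (e.map_source hs), e.left_inv hs]; exact h
  have hne : loc e μ (e y) bas ≠ 0 := by
    intro h1; rw [h1, div_zero] at h0; exact lt_irrefl _ h0
  have h2 : ∀ᶠ p in 𝓝 (e y, t), 0 < wedge (H p) (H p) bas / loc e μ p.1 bas :=
    (hw.div hm hne).eventually (lt_mem_nhds h0)
  have h3 : ContinuousAt (fun p : X × T => (e p.1, p.2)) (y, t) :=
    (ContinuousAt.comp (f := fun p : X × T => p.1) (e.continuousAt hs) continuousAt_fst).prodMk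
      continuousAt_snd
  have h4 : ∀ᶠ p : X × T in 𝓝 (y, t), p.1 ∈ e.source :=
    continuousAt_fst.preimage_mem_nhds (e.open_source.mem_nhds hs)
  filter_upwards [h3.eventually h2, h4] with p h5 h6
  have := hq _ (e.map_source h6) p.2
  rw [e.left_inv h6] at this
  rw [this]; exact h5

end Vale.Agent.P247S
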