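import Vale.Agent.P247S.A2

/-!
# P247, block S: the logarithmic cut-off and the basic move
-/

set_option linter.all false

open scoped ContDiff Topology Manifold
open Set Filter

noncomputable section

namespace Vale.Agent.P247S
open Vale.Agent.P247.SCY Vale.Agent.P247.SCY.HS
open Vale.Agent.P204.Mfd (dsym dch mdiff_symm mdiff_chart)

theorem deriv_st_bound : ∃ M : ℝ, 0 < M ∧ ∀ x, |deriv Real.smoothTransition x| ≤ M := by
  have hc : Continuous (deriv Real.smoothTransition) :=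
    (Real.smoothTransition.contDiff (n := 1)).continuous_deriv le_rfl
  obtain ⟨M, hM⟩ := (isCompact_Icc (a := (0 : ℝ)) (b := 1)).exists_bound_of_continuousOn
    hc.continuousOn
  refine ⟨max M 1, by positivity, fun x => ?_⟩
  by_cases h0 : x < 0
  · have : Real.smoothTransition =ᶠ[𝓝 x] fun _ => 0 := by
      filter_upwards [gt_mem_nhds h0] with y hy
      exact Real.smoothTransition.zero_of_nonpos hy.le
    rw [this.deriv_eq]; simp
  by_cases h1 : 1 < x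
  · have : Real.smoothTransition =ᶠ[𝓝 x] fun _ => 1 := by
      filter_upwards [lt_mem_nhds h1] with y hy
      exact Real.smoothTransition.one_of_one_le hy.le
    rw [this.deriv_eq]; simp
  exact (hM x ⟨not_lt.1 h0, not_lt.1 h1⟩).trans (le_max_left _ _)

/-- the logarithmic cut-off -/
theorem log_cut {ε κ : ℝ} (hε : 0 < ε) (hκ : 0 < κ) : ∃ χ : ℝ → ℝ, ContDiff ℝ ∞ χ ∧
    (∀ s, χ s ∈ Icc (0 : ℝ) 1) ∧ (∃ ε', 0 < ε' ∧ ∀ s, s < ε' → χ s = 1) ∧
    (∀ s, ε ≤ s → χ s = 0) ∧ ∀ s, |s * deriv χ s| ≤ κ := by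
  obtain ⟨M, hM0, hM⟩ := deriv_st_bound
  set a := κ / M with ha
  have ha0 : 0 < a := by positivity
  set g : ℝ → ℝ := fun s => Real.smoothTransition (a * (Real.log ε - Real.log s)) with hg
  set χ : ℝ → ℝ := fun s => if 0 < s then g s else 1 with hχ
  set ε' := ε * Real.exp (-(1 / a)) with hε'
  have hε'0 : 0 < ε' := by positivity
  have h1 : ∀ s, s < ε' → χ s = 1 := by
    intro s hs
    simp only [hχ]
    split_ifs with h
    · apply Real.smoothTransition.one_of_one_le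
      have h2 : Real.log s ≤ Real.log ε - 1 / a := by
        have := Real.log_le_log h hs.le
        rw [hε', Real.log_mul hε.ne' (Real.exp_pos _).ne', Real.log_exp] at this
        linarith
      have h3 : 1 / a ≤ Real.log ε - Real.log s := by linarith
      calc (1 : ℝ) = a * (1 / a) := by field_simp
        _ ≤ _ := mul_le_mul_of_nonneg_left h3 ha0.le
    · rfl
  have h2 : ∀ s, 0 < s → χ =ᶠ[𝓝 s] g := by
    intro s hs
    filter_upwards [lt_mem_nhds hs] with y hy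
    simp only [hχ, if_pos hy]
  have h3 : ∀ s, s ≤ 0 → χ =ᶠ[𝓝 s] fun _ => 1 := by
    intro s hs
    filter_upwards [gt_mem_nhds (lt_of_le_of_lt hs hε'0)] with y hy
    exact h1 y hy
  refine ⟨χ, ?_, ?_, ⟨ε', hε'0, h1⟩, ?_, ?_⟩
  · rw [contDiff_iff_contDiffAt]
    intro s
    rcases lt_or_ge 0 s with hs | hs
    · refine ContDiffAt.congr_of_eventuallyEq ?_ (h2 s hs)
      exact Real.smoothTransition.contDiffAt.comp s
        (contDiffAt_const.mul (contDiffAt_const.sub (Real.contDiffAt_log.2 hs.ne')))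
    · exact contDiffAt_const.congr_of_eventuallyEq (h3 s hs)
  · intro s
    simp only [hχ]
    split_ifs
    · exact ⟨Real.smoothTransition.nonneg _, Real.smoothTransition.le_one _⟩
    · exact ⟨zero_le_one, le_rfl⟩
  · intro s hs
    simp only [hχ, if_pos (lt_of_lt_of_le hε hs)]
    apply Real.smoothTransition.zero_of_nonpos
    have := Real.log_le_log hε hs
    exact mul_nonpos_of_nonneg_of_nonpos ha0.le (by linarith)
  · intro s
    rcases lt_or_ge 0 s with hs | hs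
    · rw [(h2 s hs).deriv_eq]
      have h4 : HasDerivAt (fun s => a * (Real.log ε - Real.log s)) (a * (0 - s⁻¹)) s :=
        ((hasDerivAt_const s _).sub (Real.hasDerivAt_log hs.ne')).const_mul a
      have h5 : HasDerivAt g (deriv Real.smoothTransition (a * (Real.log ε - Real.log s)) *
          (a * (0 - s⁻¹))) s :=
        HasDerivAt.comp s
          ((Real.smoothTransition.contDiff (n := 1)).differentiable (by simp) _).hasDerivAt h4
      rw [h5.deriv]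
      have h6 : s * (deriv Real.smoothTransition (a * (Real.log ε - Real.log s)) *
          (a * (0 - s⁻¹))) = -(a * deriv Real.smoothTransition (a * (Real.log ε - Real.log s))) := by
        field_simp
        ring
      rw [h6, abs_neg, abs_mul, abs_of_pos ha0]
      calc a * _ ≤ a * M := mul_le_mul_of_nonneg_left (hM _) ha0.le
        _ = κ := by rw [ha]; field_simp
    · rw [(h3 s hs).deriv_eq]; simp [hκ.le]

theorem clm_bound {E F : Type} [NormedAddCommGroup E] [NormedSpace ℝ E] [NormedAddCommGroup F]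
    [NormedSpace ℝ F] (L : E →L[ℝ] F) : ∃ M, 0 < M ∧ ∀ x, ‖L x‖ ≤ M * ‖x‖ := L.bound

variable {V : Type} [NormedAddCommGroup V] [NormedSpace ℝ V]
variable {X : Type} [TopologicalSpace X] [ChartedSpace HS.E4 X] [IsManifold (𝓡 4) ∞ X]

/-- positivity persists near the compact set, for small perturbations -/
theorem pos_tube {μ : Form X 4} (hμ : Volume μ) {w : Fin 3 → Form X 2} (hw : ∀ i, Smooth (w i))
    (k : Fin 3) {U : Set X} (hU : IsOpen U) {Ψ : X → V}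
    (hΨ : ContMDiffOn (𝓡 4) 𝓘(ℝ, V) ∞ Ψ U) {β : V → Al2 V}
    (hβ : ∀ y ∈ U, ContDiffAt ℝ ∞ β (Ψ y)) {S : Set X} (hS : IsCompact S) (hSU : S ⊆ U)
    (hpos : ∀ y ∈ S, ∀ t ∈ Icc (0 : ℝ) 1, ∀ c : Fin 3 → ℝ, c ≠ 0 →
      0 < qf μ y (∑ i, c i • bx (w i) y + (c k * t) • bx (pb2 Ψ β) y)) :
    ∃ W, IsOpen W ∧ S ⊆ W ∧ ∃ δ, 0 < δ ∧ ∀ y ∈ W, ∀ E : Al2 V, ‖E‖ < δ → ∀ t ∈ Icc (0 : ℝ) 1,
      ∀ c : Fin 3 → ℝ, c ≠ 0 → 0 < qf μ y (∑ i, c i • bx (w i) y +
        c k • (t • β (Ψ y) + E).compContinuousLinearMap (dF Ψ y)) := by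
  set G : X → Al2 V × ℝ × (Fin 3 → ℝ) → Al2 HS.E4 := fun y p => ∑ i, p.2.2 i • bx (w i) y +
    p.2.2 k • (p.2.1 • β (Ψ y) + p.1).compContinuousLinearMap (dF Ψ y) with hG
  set Kc : Set (ℝ × (Fin 3 → ℝ)) := Icc 0 1 ×ˢ Metric.sphere 0 1 with hKc
  have hKcc : IsCompact Kc := isCompact_Icc.prod (isCompact_sphere _ _)
  have hsub : S ×ˢ (({0} : Set (Al2 V)) ×ˢ Kc) ⊆ interior {p | 0 < qf μ p.1 (G p.1 p.2)} := by
    rintro ⟨y, E, t, c⟩ ⟨hy, hE, ht, hc⟩
    rw [mem_interior_iff_mem_nhds]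
    have hE' : E = 0 := hE
    subst hE'
    apply qf_open hμ G
    · set e := chartAt HS.E4 y
      have he : e ∈ atlas HS.E4 X := chart_mem_atlas _ _
      have hs : y ∈ e.source := mem_chart_source _ _
      have hyU : e.symm (e y) ∈ U := by rw [e.left_inv hs]; exact hSU hy
      have hA : ∀ y ∈ U, ContMDiffAt (𝓡 4) 𝓘(ℝ, V) ∞ Ψ y := fun y hy =>
        (hΨ y hy).contMDiffAt (hU.mem_nhds hy)
      have hn : ∀ᶠ z' in 𝓝 (e y), z' ∈ e.target ∧ e.symm z' ∈ U :=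
        Filter.Eventually.and (e.open_target.mem_nhds (e.map_source hs))
          ((e.continuousAt_symm (e.map_source hs)).preimage_mem_nhds (hU.mem_nhds hyU))
      have e1 : (fun p : HS.E4 × Al2 V × ℝ × (Fin 3 → ℝ) =>
          (G (e.symm p.1) p.2).compContinuousLinearMap (dsym e p.1)) =ᶠ[𝓝 (e y, 0, t, c)]
          fun p => ∑ i, p.2.2.2 i • loc e (w i) p.1 + p.2.2.2 k •
            (p.2.2.1 • β (Ψ (e.symm p.1)) + p.2.1).compContinuousLinearMap
              (fderiv ℝ (fun z => Ψ (e.symm z)) p.1) := by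
        filter_upwards [continuousAt_fst.eventually hn] with p hp
        rw [fderiv_symm he hp.1 ((hA _ hp.2).mdifferentiableAt (by simp))]
        simp only [hG, Fin.sum_univ_three]
        ext v; rfl
      refine ContinuousAt.congr ?_ e1.symm
      have h2 := cd_symm he (e.map_source hs) (hA _ hyU)
      have h3 := h2.fderiv_right (m := ∞) (by simp)
      have h4 : ∀ i, ContDiffAt ℝ ∞ (loc e (w i)) (e y) := fun i =>
        (hw i e he _ (e.map_source hs)).contDiffAt (e.open_target.mem_nhds (e.map_source hs))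
      have h5 : ContDiffAt ℝ ∞ (fun z => β (Ψ (e.symm z))) (e y) :=
        ContDiffAt.comp (g := β) (f := fun z => Ψ (e.symm z)) _ (hβ _ hyU) h2
      have hc' : ∀ i, ContDiffAt ℝ ∞ (fun p : HS.E4 × Al2 V × ℝ × (Fin 3 → ℝ) => p.2.2.2 i)
        (e y, 0, t, c) := fun i => by fun_prop
      have lift : ∀ {F : Type} [NormedAddCommGroup F] [NormedSpace ℝ F] {g : HS.E4 → F},
          ContDiffAt ℝ ∞ g (e y) → ContDiffAt ℝ ∞
            (fun p : HS.E4 × Al2 V × ℝ × (Fin 3 → ℝ) => g p.1) (e y, 0, t, c) := by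
        intro F _ _ g hg
        exact ContDiffAt.comp (g := g) (f := Prod.fst) _ hg contDiffAt_fst
      refine ContDiffAt.continuousAt (𝕜 := ℝ) (n := ∞) (ContDiffAt.add ?_ ?_)
      · exact ContDiffAt.sum fun i _ => (hc' i).smul (lift (h4 i))
      · refine (hc' k).smul (contDiffAt_comp2 (ContDiffAt.add ?_ ?_) (lift h3))
        · have h6 : ContDiffAt ℝ ∞ (fun p : HS.E4 × Al2 V × ℝ × (Fin 3 → ℝ) => p.2.2.1)
            (e y, 0, t, c) := by fun_prop
          exact h6.smul (lift h5)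
        · fun_prop
    · have hc0 : c ≠ 0 := by
        intro h; rw [h] at hc; simp at hc
      have := hpos y hy t ht c hc0
      have e2 : G y (0, t, c) = ∑ i, c i • bx (w i) y + (c k * t) • bx (pb2 Ψ β) y := by
        simp only [hG, add_zero, bx_pb2, mul_smul]
        rfl
      rw [e2]; exact this
  obtain ⟨W, W', hW, hW', h1, h2, h3⟩ := generalized_tube_lemma hS
    (isCompact_singleton.prod hKcc) isOpen_interior hsub
  obtain ⟨W1, W2, hW1, -, h4, h5, h6⟩ := generalized_tube_lemma isCompact_singleton hKcc hW' h2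
  obtain ⟨δ, hδ, h7⟩ := Metric.isOpen_iff.1 hW1 0 (h4 rfl)
  refine ⟨W, hW, h1, δ, hδ, fun y hy E hE t ht c hc => ?_⟩
  have hn : 0 < ‖c‖ := norm_pos_iff.2 hc
  have h8 : (t, ‖c‖⁻¹ • c) ∈ Kc := ⟨ht, by simp [norm_smul, hn.ne']⟩
  have h9 : (y, E, t, ‖c‖⁻¹ • c) ∈ interior {p : X × Al2 V × ℝ × (Fin 3 → ℝ) |
      0 < qf μ p.1 (G p.1 p.2)} := h3 ⟨hy, h6 ⟨h7 (by simpa using hE), h5 h8⟩⟩
  have h10 : 0 < qf μ y (G y (E, t, ‖c‖⁻¹ • c)) := by
    have := interior_subset h9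
    exact this
  have h11 : G y (E, t, c) = ‖c‖ • G y (E, t, ‖c‖⁻¹ • c) := by
    simp only [hG, smul_add, Finset.smul_sum, Pi.smul_apply, smul_eq_mul, smul_smul,
      mul_inv_cancel_left₀ hn.ne']
  show 0 < qf μ y (G y (E, t, c))
  rw [h11, qf_smul]
  positivity

variable [T2Space X]

/-- the basic move -/
theorem gen {μ : Form X 4} (hμ : Volume μ) {w : Fin 3 → Form X 2} (hw : Hypersymplectic μ w)
    (k : Fin 3) {U : Set X} (hU : IsOpen U) {Ψ : X → V}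
    (hΨ : ContMDiffOn (𝓡 4) 𝓘(ℝ, V) ∞ Ψ U) {f : V → ℝ} (hf : ContDiff ℝ ∞ f)
    (hf0 : ∀ y ∈ U, 0 ≤ f (Ψ y)) {δ : ℝ} (hδ : 0 < δ) (hK : IsCompact {y ∈ U | f (Ψ y) ≤ δ})
    {γ : V → Cov V} (hγ : ∀ y ∈ U, ContDiffAt ℝ ∞ γ (Ψ y)) {C : ℝ} (hC : 0 < C)
    (hb : ∀ y ∈ U, f (Ψ y) ≤ δ → ‖fderiv ℝ f (Ψ y)‖ * ‖γ (Ψ y)‖ ≤ C * f (Ψ y))
    (hpos : ∀ y ∈ U, f (Ψ y) = 0 → ∀ t ∈ Icc (0 : ℝ) 1, ∀ c : Fin 3 → ℝ, c ≠ 0 →
      0 < qf μ y (∑ i, c i • bx (w i) y + (c k * t) • bx (pb2 Ψ (dd γ)) y)) :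
    ∃ θ : Form X 2, Smooth θ ∧ Exact θ ∧ (∀ y, y ∉ U → θ y = 0) ∧
      (∃ ε, 0 < ε ∧ ∀ y ∈ U, f (Ψ y) < ε → θ y = pb2 Ψ (dd γ) y) ∧
      ∀ t ∈ Icc (0 : ℝ) 1, ∀ y, ∀ c : Fin 3 → ℝ, c ≠ 0 →
        0 < qf μ y (∑ i, c i • bx (w i) y + (c k * t) • bx θ y) := by
  have hfc : ContinuousOn (fun y => f (Ψ y)) U := hf.continuous.comp_continuousOn hΨ.continuousOn
  have hKε : ∀ ε ≤ δ, IsCompact {y ∈ U | f (Ψ y) ≤ ε} := by
    intro ε hε
    have h1 : {y ∈ U | f (Ψ y) ≤ ε} = {y ∈ U | f (Ψ y) ≤ δ} ∩ (fun y => f (Ψ y)) ⁻¹' Iic ε := by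
      ext y
      exact ⟨fun h => ⟨⟨h.1, h.2.trans hε⟩, h.2⟩, fun h => ⟨h.1.1, h.2⟩⟩
    rw [h1]
    exact hK.of_isClosed_subset ((hfc.mono fun y hy => hy.1).preimage_isClosed_of_isClosed
      hK.isClosed isClosed_Iic) inter_subset_left
  obtain ⟨W, hW, hSW, δ', hδ', hWp⟩ := pos_tube hμ hw.smooth k hU hΨ (β := dd γ)
    (fun y hy => contDiffAt_dd (hγ y hy)) (hKε 0 hδ.le) (fun y hy => hy.1)
    (fun y hy => hpos y hy.1 (le_antisymm hy.2 (hf0 y hy.1)))
  obtain ⟨a, ha, hlow⟩ := (hK.diff hW).exists_forall_le' (f := fun y => f (Ψ y)) (a := 0)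
    (hfc.mono fun y hy => hy.1.1) (fun y hy => lt_of_not_ge fun h => hy.2 (hSW ⟨hy.1.1, h⟩))
  set ε := min (a / 2) δ with hε
  have hε0 : 0 < ε := lt_min (by linarith) hδ
  have hεW : ∀ y ∈ U, f (Ψ y) ≤ ε → y ∈ W := by
    intro y hy h
    by_contra hn
    have := hlow y ⟨⟨hy, h.trans (min_le_right _ _)⟩, hn⟩
    have h2 : ε ≤ a / 2 := min_le_left _ _
    linarith
  obtain ⟨M, hM0, hM⟩ := clm_bound (E := Bil V) (F := Al2 V) a2
  obtain ⟨χ, hχ, hχ01, ⟨ε', hε', hχ1⟩, hχ0, hχd⟩ := log_cut hε0 (κ := δ' / (2 * M * C))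
    (by positivity)
  set γ' : V → Cov V := fun z => χ (f z) • γ z with hγ'
  have hcf : ContDiff ℝ ∞ fun z => χ (f z) := hχ.comp hf
  have h0 : ∀ y ∈ U, y ∉ {y ∈ U | f (Ψ y) ≤ ε} → γ' =ᶠ[𝓝 (Ψ y)] fun _ => 0 := by
    intro y hy hn
    have h1 : ε < f (Ψ y) := lt_of_not_ge fun h => hn ⟨hy, h⟩
    filter_upwards [hf.continuous.continuousAt.eventually (lt_mem_nhds h1)] with z hz
    simp only [hγ', hχ0 _ hz.le, zero_smul]
  obtain ⟨hs, hex⟩ := pb_exact hU (hKε ε (min_le_right _ _)).isClosed (fun y hy => hy.1) hΨ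
    (γ := γ') (fun y hy => hcf.contDiffAt.smul (hγ y hy)) h0
  refine ⟨_, hs, hex, fun y hy => cutF_not _ hy, ⟨ε', hε', fun y hy h => ?_⟩, ?_⟩
  · rw [cutF_mem _ hy]
    have h1 : γ' =ᶠ[𝓝 (Ψ y)] γ := by
      filter_upwards [hf.continuous.continuousAt.eventually (gt_mem_nhds h)] with z hz
      simp only [hγ', hχ1 _ hz, one_smul]
    unfold pb2
    rw [dd_congr h1]
  · intro t ht y c hc
    have hz : bx (cutF U (pb2 Ψ (dd γ'))) y = 0 →
        0 < qf μ y (∑ i, c i • bx (w i) y + (c k * t) • bx (cutF U (pb2 Ψ (dd γ'))) y) := by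
      intro h
      rw [h, smul_zero, add_zero]
      exact (posDef_iff μ w y).1 (hw.posDef y) c hc
    by_cases hy : y ∈ U
    swap
    · exact hz (cutF_not _ hy)
    have e0 : bx (cutF U (pb2 Ψ (dd γ'))) y = bx (pb2 Ψ (dd γ')) y := cutF_mem _ hy
    by_cases hle : f (Ψ y) ≤ ε
    swap
    · apply hz
      rw [e0, bx_pb2, dd_congr (h0 y hy fun h => hle h.2)]
      unfold dd
      rw [fderiv_fun_const]
      ext v
      simp
    set E := a2 ((fderiv ℝ (fun z => χ (f z)) (Ψ y)).smulRight (γ (Ψ y))) with hE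
    have e1 : dd γ' (Ψ y) = χ (f (Ψ y)) • dd γ (Ψ y) + E :=
      dd_smul (hcf.differentiable (by simp) _) ((hγ y hy).differentiableAt (by simp))
    have hEn : ‖E‖ < δ' := by
      have h1 : fderiv ℝ (fun z => χ (f z)) (Ψ y) = deriv χ (f (Ψ y)) • fderiv ℝ f (Ψ y) :=
        ((hχ.differentiable (by simp) _).hasDerivAt.comp_hasFDerivAt (Ψ y)
          (hf.differentiable (by simp) _).hasFDerivAt).fderiv
      have h2 : ‖E‖ ≤ M * (|deriv χ (f (Ψ y))| * (‖fderiv ℝ f (Ψ y)‖ * ‖γ (Ψ y)‖)) := by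
        refine (hM _).trans ?_
        rw [ContinuousLinearMap.norm_smulRight_apply, h1, norm_smul, Real.norm_eq_abs, mul_assoc]
      have h3 := hb y hy (hle.trans (min_le_right _ _))
      have h4 := hχd (f (Ψ y))
      rw [abs_mul, abs_of_nonneg (hf0 y hy)] at h4
      calc ‖E‖ ≤ M * (|deriv χ (f (Ψ y))| * (C * f (Ψ y))) := h2.trans (by gcongr)
        _ = M * C * (f (Ψ y) * |deriv χ (f (Ψ y))|) := by ring
        _ ≤ M * C * (δ' / (2 * M * C)) := by gcongr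
        _ = δ' / 2 := by field_simp
        _ < δ' := by linarith
    have hEt : ‖t • E‖ < δ' := by
      rw [norm_smul, Real.norm_eq_abs, abs_of_nonneg ht.1]
      exact lt_of_le_of_lt (mul_le_of_le_one_left (norm_nonneg _) ht.2) hEn
    have h5 := hWp y (hεW y hy hle) (t • E) hEt (t * χ (f (Ψ y)))
      ⟨mul_nonneg ht.1 (hχ01 _).1, mul_le_one₀ ht.2 (hχ01 _).1 (hχ01 _).2⟩ c hc
    have e2 : (c k * t) • bx (cutF U (pb2 Ψ (dd γ'))) y = c k • ((t * χ (f (Ψ y))) • dd γ (Ψ y) +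
        t • E).compContinuousLinearMap (dF Ψ y) := by
      rw [e0, bx_pb2, e1, mul_smul, mul_smul, ← smul_add]
      rfl
    rw [e2]; exact h5

end Vale.Agent.P247S
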