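import Vale.Agent.P247S.A2

/-!
# P247, block S: functions with a prescribed jet along a set
-/

set_option linter.all false

open scoped ContDiff Topology Manifold
open Set Filter

noncomputable section

namespace Vale.Agent.P247S
open Vale.Agent.P247.SCY Vale.Agent.P247.SCY.HS
open Vale.Agent.P204.Mfd (dsym dch mdiff_symm mdiff_chart)

variable {V : Type} [NormedAddCommGroup V] [NormedSpace ℝ V]
variable {X : Type} [TopologicalSpace X] [ChartedSpace HS.E4 X] [IsManifold (𝓡 4) ∞ X]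

theorem dF_chart {Ψ : X → V} {e : OpenPartialHomeomorph X HS.E4} (he : e ∈ atlas HS.E4 X)
    {y : X} (hy : y ∈ e.source) (h : MDifferentiableAt (𝓡 4) 𝓘(ℝ, V) Ψ y) :
    dF Ψ y = (fderiv ℝ (fun z => Ψ (e.symm z)) (e y)).comp (dch e y) := by
  rw [fderiv_symm he (e.map_source hy) (by rw [e.left_inv hy]; exact h), e.left_inv hy]
  ext1 u
  simp only [ContinuousLinearMap.comp_apply, dsym_dch' he hy]

theorem jet [CompactSpace X] [T2Space X] {S : Set X} {F0 : X → V}
    {C : X → Set (HS.E4 →L[ℝ] V)} (hC : ∀ y ∈ S, Convex ℝ (C y))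
    (hloc : ∀ y : X, ∃ U, IsOpen U ∧ y ∈ U ∧ ∃ F : X → V, ContMDiffOn (𝓡 4) 𝓘(ℝ, V) ∞ F U ∧
      ∀ s ∈ S, s ∈ U → F s = F0 s ∧ dF F s ∈ C s) :
    ∃ F : X → V, ContMDiff (𝓡 4) 𝓘(ℝ, V) ∞ F ∧ ∀ s ∈ S, F s = F0 s ∧ dF F s ∈ C s := by
  choose U hU hyU F hF hFS using hloc
  obtain ⟨ρ, hρ⟩ := SmoothPartitionOfUnity.exists_isSubordinate (𝓡 4) isClosed_univ U hU
    (fun y _ => mem_iUnion.2 ⟨y, hyU y⟩)
  have hsm := hρ.contMDiff_finsum_smul hU hF
  refine ⟨fun y => ∑ᶠ a, ρ a y • F a y, hsm, fun s hs => ?_⟩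
  set I := ρ.fintsupport s with hI
  have hIU : ∀ a ∈ I, s ∈ U a := fun a ha => hρ a ((ρ.mem_fintsupport_iff s a).1 ha)
  have h1 : ∀ᶠ y in 𝓝 s, ∑ᶠ a, ρ a y • F a y = ∑ a ∈ I, ρ a y • F a y ∧ ∑ a ∈ I, ρ a y = 1 := by
    filter_upwards [ρ.eventually_finsupport_subset s] with y hy
    refine ⟨?_, ρ.sum_finsupport' y (mem_univ _) hy⟩
    apply finsum_eq_sum_of_support_subset
    intro a ha
    apply hy
    rw [ρ.mem_finsupport]
    intro h0
    apply ha
    simp only [h0, zero_smul]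
  have hval : ∑ᶠ a, ρ a s • F a s = F0 s := by
    rw [h1.self_of_nhds.1, Finset.sum_congr rfl fun a ha => by rw [(hFS a s hs (hIU a ha)).1],
      ← Finset.sum_smul, h1.self_of_nhds.2, one_smul]
  refine ⟨hval, ?_⟩
  set e := chartAt HS.E4 s
  have he : e ∈ atlas HS.E4 X := chart_mem_atlas _ _
  have hse : s ∈ e.source := mem_chart_source _ _
  have hes : e.symm (e s) = s := e.left_inv hse
  have hc : Tendsto e.symm (𝓝 (e s)) (𝓝 s) := by
    have := e.continuousAt_symm (e.map_source hse)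
    rwa [ContinuousAt, hes] at this
  have hFa : ∀ a ∈ I, ContMDiffAt (𝓡 4) 𝓘(ℝ, V) ∞ (F a) s := fun a ha =>
    (hF a s (hIU a ha)).contMDiffAt ((hU a).mem_nhds (hIU a ha))
  have dFa : ∀ a ∈ I, DifferentiableAt ℝ (fun z => F a (e.symm z)) (e s) := fun a ha =>
    (cd_symm he (e.map_source hse) (by rw [hes]; exact hFa a ha)).differentiableAt (by simp)
  have dρ : ∀ a, DifferentiableAt ℝ (fun z => ρ a (e.symm z)) (e s) := fun a =>
    (cd_symm he (e.map_source hse) ((ρ a).contMDiff _)).differentiableAt (by simp)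
  have h2 : (fun z => ∑ᶠ a, ρ a (e.symm z) • F a (e.symm z)) =ᶠ[𝓝 (e s)]
      fun z => ∑ a ∈ I, ρ a (e.symm z) • F a (e.symm z) := by
    filter_upwards [hc.eventually h1] with z hz using hz.1
  have h3 : (fun z => ∑ a ∈ I, ρ a (e.symm z)) =ᶠ[𝓝 (e s)] fun _ => 1 := by
    filter_upwards [hc.eventually h1] with z hz using hz.2
  have h4 : ∑ a ∈ I, fderiv ℝ (fun z => ρ a (e.symm z)) (e s) = 0 := by
    rw [← fderiv_fun_sum fun a _ => dρ a, h3.fderiv_eq]; simp
  have h5 : fderiv ℝ (fun z => ∑ᶠ a, ρ a (e.symm z) • F a (e.symm z)) (e s) =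
      ∑ a ∈ I, ρ a s • fderiv ℝ (fun z => F a (e.symm z)) (e s) := by
    rw [h2.fderiv_eq, fderiv_fun_sum fun a ha => (dρ a).fun_smul (dFa a ha),
      Finset.sum_congr rfl fun a ha => fderiv_fun_smul (dρ a) (dFa a ha), Finset.sum_add_distrib]
    have h6 : ∑ a ∈ I, (fderiv ℝ (fun z => ρ a (e.symm z)) (e s)).smulRight (F a (e.symm (e s))) =
        0 := by
      rw [Finset.sum_congr rfl fun a ha => by rw [hes, (hFS a s hs (hIU a ha)).1]]
      ext1 u
      simp only [ContinuousLinearMap.sum_apply, ContinuousLinearMap.smulRight_apply,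
        ← Finset.sum_smul]
      rw [← ContinuousLinearMap.sum_apply, h4]; simp
    rw [h6, add_zero, hes]
  rw [dF_chart he hse ((hsm s).mdifferentiableAt (by simp)), h5,
    ContinuousLinearMap.finset_sum_comp]
  have h7 : ∀ a ∈ I, (ρ a s • fderiv ℝ (fun z => F a (e.symm z)) (e s)).comp (dch e s) =
      ρ a s • dF (F a) s := by
    intro a ha
    rw [dF_chart he hse ((hFa a ha).mdifferentiableAt (by simp)), ContinuousLinearMap.smul_comp]
  rw [Finset.sum_congr rfl h7]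
  exact (hC s hs).sum_mem (fun a _ => ρ.nonneg a s) h1.self_of_nhds.2
    fun a ha => (hFS a s hs (hIU a ha)).2

end Vale.Agent.P247S
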