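import Vale.Agent.P247S.A0
import Vale.Agent.P247X.Spec

/-!
# P247, block S: the cotangent bundle of the sphere in `ℝ³ × ℝ³`
-/

set_option linter.all false

open scoped ContDiff Topology
open Set Filter

noncomputable section

namespace Vale.Agent.P247S
open Vale.Agent.P247X (om0 Nr)

abbrev R3 := Fin 3 → ℝ
abbrev V6 := R3 × R3
abbrev C2 := ℂ × ℂ

def dot (x p : R3) : ℝ := x 0 * p 0 + x 1 * p 1 + x 2 * p 2
def rr (x : R3) : ℝ := Real.sqrt (dot x x)
/-- the retraction onto the cotangent bundle of the sphere -/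
def rho (z : V6) : V6 := ((rr z.1)⁻¹ • z.1, z.2 - (dot z.2 z.1 / dot z.1 z.1) • z.1)
/-- the squared length of the covector -/
def ff (z : V6) : ℝ := dot z.2 z.2
def mkC (a b : ℝ) : ℂ := Complex.equivRealProdCLM.symm (a, b)
def den (ζ : ℂ) : ℝ := 1 + ζ.re ^ 2 + ζ.im ^ 2
def xs (ζ : ℂ) : R3 := ![2 * ζ.re / den ζ, 2 * ζ.im / den ζ, 1 - 2 / den ζ]
def Ps (v ζ : ℂ) : R3 :=
  ![(v.re * (1 - ζ.re ^ 2 + ζ.im ^ 2) + 2 * ζ.re * ζ.im * v.im) / 4,
    (-(2 * ζ.re * ζ.im * v.re) - v.im * (1 + ζ.re ^ 2 - ζ.im ^ 2)) / 4,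
    (2 * ζ.re * v.re - 2 * ζ.im * v.im) / 4]
def zs (x : R3) : ℂ := mkC (x 0 / (rr x - x 2)) (x 1 / (rr x - x 2))
def vs (p : R3) (ζ : ℂ) : ℂ :=
  mkC (4 * (p 0 * (1 - ζ.re ^ 2 + ζ.im ^ 2) - 2 * ζ.re * ζ.im * p 1 + 2 * ζ.re * p 2) / den ζ ^ 2)
    (4 * (2 * ζ.re * ζ.im * p 0 - p 1 * (1 + ζ.re ^ 2 - ζ.im ^ 2) - 2 * ζ.im * p 2) / den ζ ^ 2)
def m1 (z : C2) : V6 := (xs z.2, Ps z.1 z.2)
def n1 (z : V6) : C2 := (vs z.2 (zs z.1), zs z.1)
def D1 : Set V6 := {z | 0 < rr z.1 - z.1 2}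

@[simp] theorem mkC_re (a b : ℝ) : (mkC a b).re = a := by simp [mkC]
@[simp] theorem mkC_im (a b : ℝ) : (mkC a b).im = b := by simp [mkC]

theorem den_pos (ζ : ℂ) : 0 < den ζ := by unfold den; positivity

theorem dot_nonneg (x : R3) : 0 ≤ dot x x := by
  unfold dot; nlinarith [mul_self_nonneg (x 0), mul_self_nonneg (x 1), mul_self_nonneg (x 2)]

theorem rr_sq (x : R3) : rr x * rr x = dot x x := Real.mul_self_sqrt (dot_nonneg x)

theorem dot_xs (ζ : ℂ) : dot (xs ζ) (xs ζ) = 1 := by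
  have h := (den_pos ζ).ne'
  simp only [dot, xs, Matrix.cons_val_zero, Matrix.cons_val_one, Matrix.cons_val]
  field_simp
  unfold den; ring

theorem rr_xs (ζ : ℂ) : rr (xs ζ) = 1 := by unfold rr; rw [dot_xs, Real.sqrt_one]

theorem zs_xs (ζ : ℂ) : zs (xs ζ) = ζ := by
  have h := (den_pos ζ).ne'
  apply Complex.ext <;>
  · simp only [zs, rr_xs, mkC_re, mkC_im]
    simp only [xs, Matrix.cons_val_zero, Matrix.cons_val_one, Matrix.cons_val]
    field_simp
    ring

theorem vs_Ps (v ζ : ℂ) : vs (Ps v ζ) ζ = v := by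
  have h := (den_pos ζ).ne'
  apply Complex.ext <;>
  · simp only [vs, Ps, mkC_re, mkC_im, Matrix.cons_val_zero, Matrix.cons_val_one, Matrix.cons_val]
    field_simp
    unfold den; ring

theorem Ps_vs (p : R3) (ζ : ℂ) : Ps (vs p ζ) ζ = p - dot p (xs ζ) • xs ζ := by
  have h := (den_pos ζ).ne'
  funext i
  fin_cases i <;>
  · simp only [vs, Ps, xs, dot, mkC_re, mkC_im, Matrix.cons_val_zero, Matrix.cons_val_one,
      Matrix.cons_val, Pi.sub_apply, Pi.smul_apply, smul_eq_mul, Fin.zero_eta, Fin.mk_one,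
      Fin.reduceFinMk]
    field_simp
    unfold den; ring

theorem rr_pos_of {x : R3} (h : 0 < rr x - x 2) : 0 < rr x := by
  have h1 := rr_sq x
  have h2 : 0 ≤ rr x := Real.sqrt_nonneg _
  by_contra h3
  have h4 : rr x = 0 := le_antisymm (not_lt.1 h3) h2
  rw [h4] at h h1
  unfold dot at h1
  nlinarith [mul_self_nonneg (x 0), mul_self_nonneg (x 1)]

theorem xs_zs {x : R3} (h : 0 < rr x - x 2) : xs (zs x) = (rr x)⁻¹ • x := by
  have h1 := rr_sq x
  have h2 := (rr_pos_of h).ne'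
  have h3 := h.ne'
  have hd : den (zs x) = 2 * rr x / (rr x - x 2) := by
    simp only [den, zs, mkC_re, mkC_im]
    unfold dot at h1
    field_simp
    linear_combination -h1
  funext i
  fin_cases i <;>
  · simp only [xs, hd]
    simp only [zs, mkC_re, mkC_im, Matrix.cons_val_zero, Matrix.cons_val_one,
      Matrix.cons_val, Pi.smul_apply, smul_eq_mul, Fin.zero_eta, Fin.mk_one, Fin.reduceFinMk]
    field_simp
    try ring

theorem n1_m1 (z : C2) : n1 (m1 z) = z := by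
  simp only [n1, m1, zs_xs, vs_Ps]

theorem m1_n1 {z : V6} (h : z ∈ D1) : m1 (n1 z) = rho z := by
  have h2 := (rr_pos_of h).ne'
  simp only [n1, m1, rho, Ps_vs, xs_zs h, ← rr_sq z.1]
  congr 2
  rw [smul_smul]
  congr 1
  simp only [dot, Pi.smul_apply, smul_eq_mul]
  field_simp

theorem m1_mem (z : C2) : m1 z ∈ D1 := by
  show 0 < rr (xs z.2) - xs z.2 2
  rw [rr_xs]
  have := den_pos z.2
  simp only [xs, Matrix.cons_val]
  have : 0 < 2 / den z.2 := by positivity
  linarith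

theorem cd_dot : ContDiff ℝ ∞ fun x : R3 => dot x x := by unfold dot; fun_prop

theorem continuous_rr : Continuous rr := Real.continuous_sqrt.comp cd_dot.continuous

theorem cd_rr {x : R3} (h : 0 < dot x x) : ContDiffAt ℝ ∞ rr x := cd_dot.contDiffAt.sqrt h.ne'

theorem D1_open : IsOpen D1 :=
  isOpen_lt continuous_const ((continuous_rr.comp continuous_fst).sub (by fun_prop))

theorem D1_pos {z : V6} (h : z ∈ D1) : 0 < dot z.1 z.1 := by
  have := rr_pos_of h
  rw [← rr_sq]; positivity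

theorem cd_re : ContDiff ℝ ∞ Complex.re := Complex.reCLM.contDiff
theorem cd_im : ContDiff ℝ ∞ Complex.im := Complex.imCLM.contDiff

theorem cd_den : ContDiff ℝ ∞ den :=
  (contDiff_const.add (cd_re.pow 2)).add (cd_im.pow 2)

theorem cd_mkC {Y : Type} [NormedAddCommGroup Y] [NormedSpace ℝ Y] {a b : Y → ℝ} {y : Y}
    (ha : ContDiffAt ℝ ∞ a y) (hb : ContDiffAt ℝ ∞ b y) :
    ContDiffAt ℝ ∞ (fun y => mkC (a y) (b y)) y :=
  Complex.equivRealProdCLM.symm.contDiff.contDiffAt.comp y (ha.prodMk hb)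

theorem cd_xs : ContDiff ℝ ∞ xs := by
  rw [contDiff_pi]
  intro i
  fin_cases i
  · exact (contDiff_const.mul cd_re).div cd_den fun ζ => (den_pos ζ).ne'
  · exact (contDiff_const.mul cd_im).div cd_den fun ζ => (den_pos ζ).ne'
  · exact contDiff_const.sub (contDiff_const.div cd_den fun ζ => (den_pos ζ).ne')

theorem cd_m1 : ContDiff ℝ ∞ m1 := by
  refine (cd_xs.comp contDiff_snd).prodMk ?_
  have h1 : ContDiff ℝ ∞ fun z : C2 => z.1.re := cd_re.comp contDiff_fst
  have h2 : ContDiff ℝ ∞ fun z : C2 => z.1.im := cd_im.comp contDiff_fst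
  have h3 : ContDiff ℝ ∞ fun z : C2 => z.2.re := cd_re.comp contDiff_snd
  have h4 : ContDiff ℝ ∞ fun z : C2 => z.2.im := cd_im.comp contDiff_snd
  rw [contDiff_pi]
  intro i
  fin_cases i <;>
  · simp only [Ps, Fin.zero_eta, Fin.mk_one, Fin.reduceFinMk, Matrix.cons_val_zero,
      Matrix.cons_val_one, Matrix.cons_val]
    fun_prop

theorem cd_zs {x : R3} (h : 0 < rr x - x 2) : ContDiffAt ℝ ∞ zs x := by
  have h1 : 0 < dot x x := D1_pos (z := (x, 0)) h
  have h2 : ContDiffAt ℝ ∞ (fun x : R3 => rr x - x 2) x := (cd_rr h1).sub (by fun_prop)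
  exact cd_mkC (ContDiffAt.div (by fun_prop) h2 h.ne') (ContDiffAt.div (by fun_prop) h2 h.ne')

theorem cd_n1 {z : V6} (h : z ∈ D1) : ContDiffAt ℝ ∞ n1 z := by
  have h1 : ContDiffAt ℝ ∞ (fun z : V6 => zs z.1) z := (cd_zs h).comp z contDiffAt_fst
  have h2 : ContDiffAt ℝ ∞ (fun z : V6 => (zs z.1).re) z := cd_re.contDiffAt.comp z h1
  have h3 : ContDiffAt ℝ ∞ (fun z : V6 => (zs z.1).im) z := cd_im.contDiffAt.comp z h1
  have h4 : ContDiffAt ℝ ∞ (fun z : V6 => den (zs z.1) ^ 2) z := (cd_den.contDiffAt.comp z h1).pow 2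
  have h5 : den (zs z.1) ^ 2 ≠ 0 := (pow_pos (den_pos _) 2).ne'
  refine ContDiffAt.prodMk ?_ h1
  exact cd_mkC (ContDiffAt.div (by fun_prop) h4 h5) (ContDiffAt.div (by fun_prop) h4 h5)

theorem cd_rho {z : V6} (h : 0 < dot z.1 z.1) : ContDiffAt ℝ ∞ rho z := by
  have h1 : ContDiffAt ℝ ∞ (fun z : V6 => rr z.1) z := (cd_rr h).comp z contDiffAt_fst
  have h2 : rr z.1 ≠ 0 := (Real.sqrt_pos.2 h).ne'
  have h3 : ContDiffAt ℝ ∞ (fun z : V6 => dot z.2 z.1) z := by unfold dot; fun_prop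
  have h4 : ContDiffAt ℝ ∞ (fun z : V6 => dot z.1 z.1) z := by unfold dot; fun_prop
  exact ((h1.inv h2).smul contDiffAt_fst).prodMk (contDiffAt_snd.sub
    ((h3.div h4 h.ne').smul contDiffAt_fst))

theorem cd_ff : ContDiff ℝ ∞ ff := cd_dot.comp contDiff_snd

theorem ff_m1 (z : C2) : ff (m1 z) = (‖z.1‖ * (1 + ‖z.2‖ ^ 2)) ^ 2 / 16 := by
  rw [mul_pow, Complex.sq_norm, Complex.sq_norm, Complex.normSq_apply, Complex.normSq_apply]
  simp only [ff, m1, Ps, dot, Matrix.cons_val_zero, Matrix.cons_val_one, Matrix.cons_val]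
  ring

/-! ### the tautological forms -/

/-- the covector `p · dx` -/
def cv : R3 →L[ℝ] Cov V6 :=
  LinearMap.toContinuousLinearMap
    { toFun := fun p => LinearMap.toContinuousLinearMap
        { toFun := fun a : V6 => dot p a.1
          map_add' := by intro a b; simp only [dot, Prod.fst_add, Pi.add_apply]; ring
          map_smul' := by
            intro c a
            simp only [dot, Prod.smul_fst, Pi.smul_apply, smul_eq_mul, RingHom.id_apply]; ring }
      map_add' := by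
        intro p q; refine ContinuousLinearMap.ext fun a => ?_
        simp only [dot, LinearMap.coe_toContinuousLinearMap', LinearMap.coe_mk, AddHom.coe_mk,
          ContinuousLinearMap.add_apply, Pi.add_apply]; ring
      map_smul' := by
        intro c p; refine ContinuousLinearMap.ext fun a => ?_
        simp only [dot, LinearMap.coe_toContinuousLinearMap', LinearMap.coe_mk, AddHom.coe_mk,
          ContinuousLinearMap.smul_apply, Pi.smul_apply, smul_eq_mul, RingHom.id_apply]; ring }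

theorem cv_apply (p : R3) (a : V6) : cv p a = dot p a.1 := rfl

def crs (p x : R3) : R3 := ![p 1 * x 2 - p 2 * x 1, p 2 * x 0 - p 0 * x 2, p 0 * x 1 - p 1 * x 0]

def lam0 (z : V6) : Cov V6 := cv z.2
def lam1 (z : V6) : Cov V6 := cv (crs z.2 z.1)

theorem cd_lam0 : ContDiff ℝ ∞ lam0 := cv.contDiff.comp contDiff_snd

theorem cd_lam1 : ContDiff ℝ ∞ lam1 := by
  refine cv.contDiff.comp ?_
  rw [contDiff_pi]
  intro i
  fin_cases i <;>
  · simp only [crs, Fin.zero_eta, Fin.mk_one, Fin.reduceFinMk, Matrix.cons_val_zero,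
      Matrix.cons_val_one, Matrix.cons_val]
    fun_prop

theorem fderiv_xs (ζ a : ℂ) : fderiv ℝ xs ζ a =
    ![2 * a.re / den ζ - 2 * ζ.re * (2 * ζ.re * a.re + 2 * ζ.im * a.im) / den ζ ^ 2,
      2 * a.im / den ζ - 2 * ζ.im * (2 * ζ.re * a.re + 2 * ζ.im * a.im) / den ζ ^ 2,
      2 * (2 * ζ.re * a.re + 2 * ζ.im * a.im) / den ζ ^ 2] := by
  have h := (den_pos ζ).ne'
  have hre : HasFDerivAt Complex.re Complex.reCLM ζ := Complex.reCLM.hasFDerivAt
  have him : HasFDerivAt Complex.im Complex.imCLM ζ := Complex.imCLM.hasFDerivAt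
  have hd := ((hre.pow 2).const_add 1).add (him.pow 2)
  have hd' := (hasDerivAt_inv h).comp_hasFDerivAt ζ (f := den) hd
  have hx := (cd_xs.differentiable (by simp) ζ).hasFDerivAt
  have key : ∀ i (L : ℂ →L[ℝ] ℝ), HasFDerivAt (fun ζ => xs ζ i) L ζ → fderiv ℝ xs ζ a i = L a := by
    intro i L hL
    have h1 := (hasFDerivAt_pi'.1 hx i).unique hL
    rw [← h1]; rfl
  funext i
  fin_cases i
  · rw [key _ _ (((hre.const_mul 2).mul hd').congr_of_eventuallyEq
      (Eventually.of_forall fun ζ => by simp [xs, div_eq_mul_inv]))]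
    simp
    field_simp
    ring
  · rw [key _ _ (((him.const_mul 2).mul hd').congr_of_eventuallyEq
      (Eventually.of_forall fun ζ => by simp [xs, div_eq_mul_inv]))]
    simp
    field_simp
    ring
  · rw [key _ _ (((hd'.const_mul 2).const_sub 1).congr_of_eventuallyEq
      (Eventually.of_forall fun ζ => by simp [xs, div_eq_mul_inv]))]
    simp
    field_simp
    ring

theorem fderiv_m1_fst (z a : C2) : (fderiv ℝ m1 z a).1 = fderiv ℝ xs z.2 a.2 := by
  have h1 := (cd_m1.differentiable (by simp) z).hasFDerivAt.fst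
  have h2 : HasFDerivAt (fun z : C2 => xs z.2)
      ((fderiv ℝ xs z.2).comp (ContinuousLinearMap.snd ℝ ℂ ℂ)) z :=
    (cd_xs.differentiable (by simp) z.2).hasFDerivAt.comp z hasFDerivAt_snd
  have h3 := h1.unique h2
  exact DFunLike.congr_fun h3 a

theorem lam0_m1 (z a : C2) : lam0 (m1 z) (fderiv ℝ m1 z a) = (z.1 * a.2).re / 2 := by
  have h := (den_pos z.2).ne'
  rw [lam0, cv_apply, fderiv_m1_fst, fderiv_xs]
  simp only [m1, Ps, dot, Matrix.cons_val_zero, Matrix.cons_val_one, Matrix.cons_val,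
    Complex.mul_re]
  field_simp
  unfold den; ring

theorem lam1_m1 (z a : C2) : lam1 (m1 z) (fderiv ℝ m1 z a) = (z.1 * a.2).im / 2 := by
  have h := (den_pos z.2).ne'
  rw [lam1, cv_apply, fderiv_m1_fst, fderiv_xs]
  simp only [m1, Ps, xs, crs, dot, Matrix.cons_val_zero, Matrix.cons_val_one, Matrix.cons_val,
    Complex.mul_im]
  field_simp
  unfold den; ring

end Vale.Agent.P247S
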