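import Vale.Agent.P247S.B0

/-!
# P247, block S: the two model charts
-/

set_option linter.all false

open scoped ContDiff Topology
open Set Filter

noncomputable section

namespace Vale.Agent.P247S
open Vale.Agent.P247X (om0 Nr)

/-- charts of the cotangent bundle of the sphere -/
structure MC where
  m : C2 → V6
  n : V6 → C2
  D : Set V6
  sg : ℝ
  sg_sq : sg * sg = 1
  m_smooth : ContDiff ℝ ∞ m
  D_open : IsOpen D
  n_smooth : ∀ z ∈ D, ContDiffAt ℝ ∞ n z
  m_mem : ∀ z, m z ∈ D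
  n_m : ∀ z, n (m z) = z
  m_n : ∀ z ∈ D, m (n z) = rho z
  D_pos : ∀ z ∈ D, 0 < dot z.1 z.1
  l0 : ∀ z a, lam0 (m z) (fderiv ℝ m z a) = sg * ((z.1 * a.2).re / 2)
  l1 : ∀ z a, lam1 (m z) (fderiv ℝ m z a) = sg * ((z.1 * a.2).im / 2)
  ffm : ∀ z, ff (m z) = (‖z.1‖ * (1 + ‖z.2‖ ^ 2)) ^ 2 / 16
  dotm : ∀ z, dot (m z).1 (m z).1 = 1
  n_zero : ∀ x : R3, (n (x, 0)).1 = 0
  m_zero : ∀ ζ, (m (0, ζ)).2 = 0

theorem vs_zero (ζ : ℂ) : vs 0 ζ = 0 := by
  apply Complex.ext <;> simp [vs]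

theorem Ps_zero (ζ : ℂ) : Ps 0 ζ = 0 := by
  funext i; fin_cases i <;> simp [Ps]

/-- the first chart -/
def M1 : MC where
  m := m1
  n := n1
  D := D1
  sg := 1
  sg_sq := by norm_num
  m_smooth := cd_m1
  D_open := D1_open
  n_smooth := fun z hz => cd_n1 hz
  m_mem := m1_mem
  n_m := n1_m1
  m_n := fun z hz => m1_n1 hz
  D_pos := fun z hz => D1_pos hz
  l0 := fun z a => by rw [lam0_m1, one_mul]
  l1 := fun z a => by rw [lam1_m1, one_mul]
  ffm := ff_m1
  dotm := fun z => dot_xs _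
  n_zero := fun x => vs_zero _
  m_zero := Ps_zero

/-- the rotation by `π` -/
def R0 : R3 →L[ℝ] R3 :=
  LinearMap.toContinuousLinearMap
    { toFun := fun x => ![x 0, -x 1, -x 2]
      map_add' := by intro a b; funext i; fin_cases i <;> simp <;> ring
      map_smul' := by intro c a; funext i; fin_cases i <;> simp }

theorem R0_apply (x : R3) : R0 x = ![x 0, -x 1, -x 2] := rfl

theorem R0_R0 (x : R3) : R0 (R0 x) = x := by
  funext i; fin_cases i <;> simp [R0_apply]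

theorem dot_R0 (x p : R3) : dot (R0 x) (R0 p) = dot x p := by
  simp [dot, R0_apply]

def Rr : V6 →L[ℝ] V6 := R0.prodMap (-R0)

theorem Rr_apply (z : V6) : Rr z = (R0 z.1, -R0 z.2) := rfl

theorem Rr_Rr (z : V6) : Rr (Rr z) = z := by
  simp only [Rr_apply, map_neg, neg_neg, R0_R0]

theorem dot_neg_left (x p : R3) : dot (-x) p = -dot x p := by simp only [dot, Pi.neg_apply]; ring
theorem dot_neg_right (x p : R3) : dot x (-p) = -dot x p := by simp only [dot, Pi.neg_apply]; ring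

theorem rho_Rr (z : V6) : rho (Rr z) = Rr (rho z) := by
  simp only [rho, Rr_apply, rr, dot_R0, dot_neg_left, map_smul, map_sub, neg_div, neg_smul]
  congr 1
  abel

theorem lam0_Rr (z a : V6) : lam0 (Rr z) (Rr a) = - lam0 z a := by
  simp only [lam0, cv_apply, Rr_apply, dot_neg_left, dot_R0]

theorem lam1_Rr (z a : V6) : lam1 (Rr z) (Rr a) = - lam1 z a := by
  simp [lam1, cv_apply, Rr_apply, dot, crs, R0_apply]
  ring

theorem fderiv_Rm (z a : C2) : fderiv ℝ (fun z => Rr (m1 z)) z a = Rr (fderiv ℝ m1 z a) := by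
  rw [(fda Rr (cd_m1.differentiable (by simp) z).hasFDerivAt).fderiv]; rfl

/-- the second chart -/
def M2 : MC where
  m := fun z => Rr (m1 z)
  n := fun z => n1 (Rr z)
  D := Rr ⁻¹' D1
  sg := -1
  sg_sq := by norm_num
  m_smooth := Rr.contDiff.comp cd_m1
  D_open := D1_open.preimage Rr.continuous
  n_smooth := fun z hz => (cd_n1 hz).comp z Rr.contDiff.contDiffAt
  m_mem := fun z => by rw [mem_preimage, Rr_Rr]; exact m1_mem z
  n_m := fun z => by rw [Rr_Rr, n1_m1]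
  m_n := fun z hz => by rw [m1_n1 hz, rho_Rr, Rr_Rr]
  D_pos := fun z hz => by
    have := D1_pos hz
    rwa [Rr_apply, dot_R0] at this
  l0 := fun z a => by rw [fderiv_Rm, lam0_Rr, lam0_m1, neg_one_mul]
  l1 := fun z a => by rw [fderiv_Rm, lam1_Rr, lam1_m1, neg_one_mul]
  ffm := fun z => by
    rw [← ff_m1]
    simp only [ff, Rr_apply, dot_neg_left, dot_neg_right, neg_neg, dot_R0]
  dotm := fun z => by rw [Rr_apply, dot_R0]; exact dot_xs _
  n_zero := fun x => by simp only [Rr_apply, map_zero, neg_zero, n1, vs_zero]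
  m_zero := fun ζ => by simp only [Rr_apply, m1, Ps_zero, map_zero, neg_zero]

theorem M_cover {z : V6} (h : 0 < dot z.1 z.1) : z ∈ M1.D ∨ z ∈ M2.D := by
  have h1 : 0 < rr z.1 := Real.sqrt_pos.2 h
  by_cases h2 : 0 < rr z.1 - z.1 2
  · exact Or.inl h2
  · right
    show 0 < rr (R0 z.1) - R0 z.1 2
    have : rr (R0 z.1) = rr z.1 := by unfold rr; rw [dot_R0]
    rw [this, R0_apply]
    simp only [Matrix.cons_val]
    linarith

/-- the transition map -/
def Tr (z : C2) : C2 := (z.1 * z.2 ^ 2, z.2⁻¹)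

theorem M_glue {z : C2} (h : z.2 ≠ 0) : M2.m (Tr z) = M1.m z := by
  obtain ⟨v, ζ⟩ := z
  have h1 : 0 < ζ.re ^ 2 + ζ.im ^ 2 := by
    have := Complex.normSq_pos.2 h
    rw [Complex.normSq_apply] at this
    nlinarith
  have h2 := h1.ne'
  have h3 := (den_pos ζ).ne'
  have hre : (ζ⁻¹).re = ζ.re / (ζ.re ^ 2 + ζ.im ^ 2) := by
    rw [Complex.inv_re, Complex.normSq_apply]; ring
  have him : (ζ⁻¹).im = -ζ.im / (ζ.re ^ 2 + ζ.im ^ 2) := by
    rw [Complex.inv_im, Complex.normSq_apply]; ring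
  have hd : den ζ⁻¹ = den ζ / (ζ.re ^ 2 + ζ.im ^ 2) := by
    simp only [den, hre, him]; field_simp; ring
  show (R0 (xs ζ⁻¹), -R0 (Ps (v * ζ ^ 2) ζ⁻¹)) = (xs ζ, Ps v ζ)
  congr 1
  · funext i
    fin_cases i <;>
    · simp only [R0_apply, xs, hd, hre, him, Fin.zero_eta, Fin.mk_one, Fin.reduceFinMk,
        Matrix.cons_val_zero, Matrix.cons_val_one, Matrix.cons_val]
      field_simp
      try (unfold den; ring)
  · funext i
    fin_cases i <;>
    · simp only [R0_apply, Ps, hre, him, Fin.zero_eta, Fin.mk_one, Fin.reduceFinMk, Pi.neg_apply,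
        Matrix.cons_val_zero, Matrix.cons_val_one, Matrix.cons_val, pow_two ζ, Complex.mul_re,
        Complex.mul_im]
      field_simp
      ring

theorem M_sep {z z' : C2} (h : M1.m z = M2.m z') : z.2 ≠ 0 := by
  intro h0
  have h1 : xs z.2 2 = R0 (xs z'.2) 2 := congrFun (congrArg Prod.fst h) 2
  rw [h0, R0_apply] at h1
  simp only [xs, Matrix.cons_val, den, Complex.zero_re, Complex.zero_im] at h1
  have : 0 < 2 / (1 + z'.2.re ^ 2 + z'.2.im ^ 2) := by positivity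
  norm_num at h1
  linarith

namespace MC
variable (M : MC)

theorem inj : Function.Injective M.m := fun z z' h => by rw [← M.n_m z, h, M.n_m]

theorem rho_m (z : C2) : rho (M.m z) = M.m z := by rw [← M.m_n _ (M.m_mem z), M.n_m]

theorem diff (z : C2) : DifferentiableAt ℝ M.m z := M.m_smooth.differentiable (by simp) z

theorem dn_dm (z a : C2) : fderiv ℝ M.n (M.m z) (fderiv ℝ M.m z a) = a := by
  have h1 := ((M.n_smooth _ (M.m_mem z)).differentiableAt (by simp)).hasFDerivAt.comp z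
    (M.diff z).hasFDerivAt
  have h2 : M.n ∘ M.m = id := funext M.n_m
  rw [h2] at h1
  exact DFunLike.congr_fun (h1.unique (hasFDerivAt_id z)) a

theorem drho_dm (z a : C2) : fderiv ℝ rho (M.m z) (fderiv ℝ M.m z a) = fderiv ℝ M.m z a := by
  have h1 := ((cd_rho (M.D_pos _ (M.m_mem z))).differentiableAt (by simp)).hasFDerivAt.comp z
    (M.diff z).hasFDerivAt
  have h2 : rho ∘ M.m = M.m := funext M.rho_m
  rw [h2] at h1
  exact DFunLike.congr_fun (h1.unique (M.diff z).hasFDerivAt) a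

theorem dd_aux {lam : V6 → Cov V6} (hl : ContDiff ℝ ∞ lam) (φ : ℂ →L[ℝ] ℝ)
    (h : ∀ z a, lam (M.m z) (fderiv ℝ M.m z a) = M.sg * (φ (z.1 * a.2) / 2)) (z a b : C2) :
    dd lam (M.m z) ![fderiv ℝ M.m z a, fderiv ℝ M.m z b] = M.sg * φ (om0 a b) := by
  rw [← comp2_apply, ← dd_pull' (hl.differentiable (by simp) _) M.m_smooth.contDiffAt]
  set B : C2 →L[ℝ] Cov C2 := (M.sg / 2) • (ContinuousLinearMap.compL ℝ C2 ℂ ℝ φ).comp
    ((ContinuousLinearMap.mul ℝ ℂ).bilinearComp (ContinuousLinearMap.fst ℝ ℂ ℂ)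
      (ContinuousLinearMap.snd ℝ ℂ ℂ)) with hB
  have hBa : ∀ z a, B z a = M.sg * (φ (z.1 * a.2) / 2) := by
    intro z a
    simp [hB]; ring
  have h1 : (fun z => (lam (M.m z)).comp (fderiv ℝ M.m z)) = B := by
    funext z
    refine ContinuousLinearMap.ext fun a => ?_
    rw [ContinuousLinearMap.comp_apply, h, hBa]
  rw [h1, dd_apply, B.fderiv, hBa, hBa, om0]
  have h2 : (a.1 * b.2 - a.2 * b.1) / 2 = (1 / 2 : ℝ) • (a.1 * b.2 - b.1 * a.2) := by
    simp; ring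
  rw [h2, map_smul, map_sub, smul_eq_mul]; ring

theorem dd0 (z a b : C2) :
    dd lam0 (M.m z) ![fderiv ℝ M.m z a, fderiv ℝ M.m z b] = M.sg * (om0 a b).re :=
  M.dd_aux cd_lam0 Complex.reCLM M.l0 z a b

theorem dd1 (z a b : C2) :
    dd lam1 (M.m z) ![fderiv ℝ M.m z a, fderiv ℝ M.m z b] = M.sg * (om0 a b).im :=
  M.dd_aux cd_lam1 Complex.imCLM M.l1 z a b

theorem ff_lt {r : ℝ} (hr : 0 < r) {z : C2} : z ∈ Nr r ↔ ff (M.m z) < r ^ 2 / 16 := by
  rw [M.ffm, div_lt_div_iff_of_pos_right (by norm_num : (0 : ℝ) < 16),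
    pow_lt_pow_iff_left₀ (by positivity) hr.le (by norm_num)]
  rfl

end MC

theorem lam0_zero (x : R3) : lam0 (x, 0) = 0 := by simp [lam0]
theorem lam1_zero (x : R3) : lam1 (x, 0) = 0 := by
  have : crs 0 x = 0 := by funext i; fin_cases i <;> simp [crs]
  simp [lam1, this]

theorem sq_norm_le (p : R3) : ‖p‖ * ‖p‖ ≤ dot p p := by
  have h : ‖p‖ ≤ rr p := by
    refine (pi_norm_le_iff_of_nonneg (Real.sqrt_nonneg _)).2 fun i => ?_
    rw [Real.norm_eq_abs]
    apply Real.abs_le_sqrt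
    unfold dot
    fin_cases i <;> simp <;>
      nlinarith [mul_self_nonneg (p 0), mul_self_nonneg (p 1), mul_self_nonneg (p 2)]
  rw [← rr_sq]
  exact mul_le_mul h h (norm_nonneg _) (Real.sqrt_nonneg _)

theorem lip0 {F : Type} [NormedAddCommGroup F] [NormedSpace ℝ F] {g : V6 → F}
    (hg : ContDiff ℝ ∞ g) (h0 : ∀ x, g (x, 0) = 0) (R : ℝ) :
    ∃ C, 0 < C ∧ ∀ z : V6, ‖z‖ ≤ R → ‖g z‖ ≤ C * ‖z.2‖ := by
  obtain ⟨C, hC⟩ := (isCompact_closedBall (0 : V6) R).exists_bound_of_continuousOn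
    (hg.continuous_fderiv (by simp)).continuousOn
  refine ⟨max C 1, by positivity, fun z hz => ?_⟩
  have h1 : (z.1, (0 : R3)) ∈ Metric.closedBall (0 : V6) R := by
    rw [mem_closedBall_zero_iff, Prod.norm_def, norm_zero]
    exact max_le ((norm_fst_le z).trans hz) ((norm_nonneg _).trans hz)
  have h2 := (convex_closedBall (0 : V6) R).norm_image_sub_le_of_norm_fderiv_le (𝕜 := ℝ) (f := g)
    (fun x _ => hg.differentiable (by simp) x) (fun x hx => (hC x hx).trans (le_max_left C 1))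
    h1 (mem_closedBall_zero_iff.2 hz)
  rw [h0, sub_zero] at h2
  have h3 : ‖z - (z.1, (0 : R3))‖ = ‖z.2‖ := by
    rw [Prod.norm_def]; simp
  rwa [h3] at h2

theorem bound_ff {γ : V6 → Cov V6} (hγ : ContDiff ℝ ∞ γ) (h0 : ∀ x, γ (x, 0) = 0) (R : ℝ) :
    ∃ C, 0 < C ∧ ∀ z : V6, ‖z‖ ≤ R → ‖fderiv ℝ ff z‖ * ‖γ z‖ ≤ C * ff z := by
  obtain ⟨C1, h1, h1'⟩ := lip0 hγ h0 R
  obtain ⟨C2, h2, h2'⟩ := lip0 (g := fderiv ℝ ff) (cd_ff.fderiv_right (m := ∞) (by simp))
    (fun x => IsLocalMin.fderiv_eq_zero (Eventually.of_forall fun z => by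
      show dot 0 0 ≤ ff z
      have : dot (0 : R3) 0 = 0 := by simp [dot]
      rw [this]; exact dot_nonneg _)) R
  refine ⟨C2 * C1, by positivity, fun z hz => ?_⟩
  calc _ ≤ (C2 * ‖z.2‖) * (C1 * ‖z.2‖) := mul_le_mul (h2' z hz) (h1' z hz) (norm_nonneg _)
        (by positivity)
    _ = C2 * C1 * (‖z.2‖ * ‖z.2‖) := by ring
    _ ≤ _ := mul_le_mul_of_nonneg_left (sq_norm_le _) (by positivity)

end Vale.Agent.P247S
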