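import Vale.Agent.P247S.B1

/-!
# P247, block S: inverse function theorem, linear algebra along the sphere
-/

set_option linter.all false

open scoped ContDiff Topology
open Set Filter Complex

noncomputable section

namespace Vale.Agent.P247S
open Vale.Agent.P247X (om0 Nr)
open Vale.Agent.P247.SCY

theorem ift {E F : Type} [NormedAddCommGroup E] [NormedSpace ℝ E] [CompleteSpace E]
    [NormedAddCommGroup F] [NormedSpace ℝ F] [CompleteSpace F] {G : E → F} {O : Set E}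
    (hO : IsOpen O) (hG : ∀ z ∈ O, ContDiffAt ℝ ∞ G z) {z0 : E} (h0 : z0 ∈ O)
    (hb : Function.Bijective (fderiv ℝ G z0)) :
    ∃ φ : OpenPartialHomeomorph E F, z0 ∈ φ.source ∧ φ.source ⊆ O ∧ (∀ z, φ z = G z) ∧
      ∀ y ∈ φ.target, ContDiffAt ℝ ∞ φ.symm y := by
  set A : E ≃L[ℝ] F := ContinuousLinearEquiv.ofBijective (fderiv ℝ G z0)
    (LinearMap.ker_eq_bot.2 hb.1) (LinearMap.range_eq_top.2 hb.2) with hA
  have hA' : (A : E →L[ℝ] F) = fderiv ℝ G z0 := rfl
  have hd : HasFDerivAt G (A : E →L[ℝ] F) z0 :=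
    ((hG z0 h0).differentiableAt (by simp)).hasFDerivAt
  set φ0 := (hG z0 h0).toOpenPartialHomeomorph G hd (by simp)
  have h1 : ∀ᶠ z in 𝓝 z0, z ∈ O ∧ fderiv ℝ G z ∈ range ((↑) : (E ≃L[ℝ] F) → E →L[ℝ] F) := by
    refine Filter.Eventually.and (hO.mem_nhds h0) ?_
    exact ((hG z0 h0).fderiv_right (m := ∞) (by simp)).continuousAt.eventually (A.nhds)
  obtain ⟨O', h2, h3, h4⟩ := mem_nhds_iff.1 h1
  refine ⟨φ0.restrOpen O' h3, ⟨(hG z0 h0).mem_toOpenPartialHomeomorph_source hd (by simp), h4⟩,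
    fun z hz => (h2 hz.2).1, fun z => rfl, fun y hy => ?_⟩
  have h5 := (φ0.restrOpen O' h3).map_target hy
  obtain ⟨h6, B, h7⟩ := h2 h5.2
  refine (φ0.restrOpen O' h3).contDiffAt_symm (f₀' := B) hy ?_ (hG _ h6)
  rw [h7]
  exact ((hG _ h6).differentiableAt (by simp)).hasFDerivAt

theorem bij_of_surj (K : HS.E4 →L[ℝ] C2) (h : Function.Surjective K) : Function.Bijective K :=
  ⟨(LinearMap.injective_iff_surjective_of_finrank_eq_finrank (f := (K : HS.E4 →ₗ[ℝ] C2))
    (by simp [Module.finrank_prod])).2 h, h⟩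

theorem bij_of_inj (K : C2 →L[ℝ] HS.E4) (h : Function.Injective K) : Function.Bijective K :=
  ⟨h, (LinearMap.injective_iff_surjective_of_finrank_eq_finrank (f := (K : C2 →ₗ[ℝ] HS.E4))
    (by simp [Module.finrank_prod])).1 h⟩

theorem re_mul_ext {k k' : ℂ} (h : ∀ a, (k * a).re = (k' * a).re) : k = k' := by
  have h1 := h 1
  have h2 := h I
  simp at h1 h2
  exact Complex.ext h1 h2

/-- a complex line in a complex symplectic space -/
structure LA (J : HS.E4 →L[ℝ] HS.E4) (B : Al2 HS.E4) (d : ℂ →L[ℝ] HS.E4) : Prop where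
  sq : ∀ v, J (J v) = -v
  anti : ∀ u v, B ![J u, J v] = - B ![u, v]
  nd : ∀ v, (∀ w, B ![v, w] = 0) → v = 0
  hol : d I = J (d 1)
  ne : d 1 ≠ 0

/-- adapted coordinates -/
structure KC (J : HS.E4 →L[ℝ] HS.E4) (B : Al2 HS.E4) (sg : ℝ) (d : ℂ →L[ℝ] HS.E4)
    (K : HS.E4 →L[ℝ] C2) : Prop where
  hJ : ∀ v, (K (J v)).2 = I * (K v).2
  hd : ∀ a, (K (d a)).2 = a
  hB : ∀ v a, ((K v).1 * a).re / 2 = sg * B ![v, d a]

theorem anti_J {J : HS.E4 →L[ℝ] HS.E4} {B : Al2 HS.E4} (sq : ∀ v, J (J v) = -v)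
    (anti : ∀ u v, B ![J u, J v] = - B ![u, v]) (u v : HS.E4) : B ![J u, v] = B ![u, J v] := by
  have h := anti u (J v)
  rw [sq, ← bl_apply, map_neg, bl_apply] at h
  linarith

theorem anti_self {J : HS.E4 →L[ℝ] HS.E4} {B : Al2 HS.E4} (sq : ∀ v, J (J v) = -v)
    (anti : ∀ u v, B ![J u, J v] = - B ![u, v]) (u : HS.E4) : B ![u, J u] = 0 := by
  have h := anti_J sq anti u u
  rw [alt2_swap] at h
  linarith

theorem clm_complex {F : Type} [NormedAddCommGroup F] [NormedSpace ℝ F] (d : ℂ →L[ℝ] F) (a : ℂ) :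
    d a = a.re • d 1 + a.im • d I := by
  conv_lhs => rw [show a = a.re • (1 : ℂ) + a.im • I by apply Complex.ext <;> simp]
  rw [map_add, map_smul, map_smul]

namespace LA
variable {J : HS.E4 →L[ℝ] HS.E4} {B : Al2 HS.E4} {d : ℂ →L[ℝ] HS.E4} (h : LA J B d)
include h

theorem dI (a : ℂ) : d (I * a) = J (d a) := by
  rw [clm_complex d (I * a), clm_complex d a, h.hol, map_add, map_smul, map_smul, h.sq]
  simp [add_comm]

theorem dd_zero {B' : Al2 HS.E4} (anti : ∀ u v, B' ![J u, J v] = - B' ![u, v]) (a b : ℂ) :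
    B' ![d a, d b] = 0 := by
  have h1 := anti_self h.sq anti (d 1)
  have h2 := alt2_swap B' (d 1) (J (d 1))
  have h3 := alt2_self B' (d 1)
  have h4 := alt2_self B' (J (d 1))
  simp only [← bl_apply] at h1 h2 h3 h4 ⊢
  rw [clm_complex d a, clm_complex d b, h.hol]
  simp only [map_add, map_smul, ContinuousLinearMap.add_apply, ContinuousLinearMap.smul_apply,
    smul_eq_mul, h1, h2, h3, h4]
  ring

theorem d_inj {a : ℂ} (ha : d a = 0) : a = 0 := by
  have h1 := h.dI a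
  rw [ha, map_zero] at h1
  have h2 : (a.re ^ 2 + a.im ^ 2) • d 1 = 0 := by
    have e : (a.re ^ 2 + a.im ^ 2) • (1 : ℂ) = a.re • a - a.im • (I * a) := by
      apply Complex.ext <;> simp [pow_two] <;> ring
    rw [← map_smul, e, map_sub, map_smul, map_smul, ha, h1]; simp
  have h3 := (smul_eq_zero.1 h2).resolve_right h.ne
  apply Complex.ext <;> simp <;> nlinarith [sq_nonneg a.re, sq_nonneg a.im]

theorem exists_n0 : ∃ n0, B ![n0, d 1] ≠ 0 := by
  by_contra hc
  push Not at hc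
  exact h.ne (h.nd _ fun w => by rw [alt2_swap, hc, neg_zero])

variable {sg : ℝ} (hs : sg * sg = 1) {K : HS.E4 →L[ℝ] C2} (hK : KC J B sg d K)
include hK

theorem KJ (v : HS.E4) : K (J v) = I • K v := by
  refine Prod.ext (re_mul_ext fun a => ?_) (hK.hJ v)
  have h1 := hK.hB (J v) a
  have h2 := hK.hB v (I * a)
  rw [h.dI, ← anti_J h.sq h.anti] at h2
  rw [Prod.smul_fst, smul_eq_mul, mul_comm I, mul_assoc]
  linarith

theorem Kd (a : ℂ) : K (d a) = (0, a) := by
  refine Prod.ext (re_mul_ext fun b => ?_) (hK.hd a)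
  have h1 := hK.hB (d a) b
  rw [h.dd_zero h.anti] at h1
  simp only [zero_mul, zero_re]
  linarith

include hs

theorem K_bij : Function.Bijective K := by
  apply bij_of_surj
  obtain ⟨n0, h0⟩ := h.exists_n0
  have h1 : (K n0).1 ≠ 0 := by
    intro h2
    have h3 := hK.hB n0 1
    rw [h2] at h3
    simp only [zero_mul, zero_re, zero_div] at h3
    rcases mul_eq_zero.1 h3.symm with h4 | h4
    · rw [h4] at hs; norm_num at hs
    · exact h0 h4
  rintro ⟨c1, c2⟩
  set t := c1 / (K n0).1 with ht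
  set v1 := t.re • n0 + t.im • J n0 with hv
  have h2 : K v1 = t • K n0 := by
    rw [hv, map_add, map_smul, map_smul, h.KJ hK]
    conv_rhs => rw [show t = t.re • (1 : ℂ) + t.im • I by apply Complex.ext <;> simp]
    rw [add_smul, smul_assoc, smul_assoc, one_smul]
  refine ⟨v1 + d (c2 - (K v1).2), ?_⟩
  rw [map_add, h.Kd hK]
  refine Prod.ext ?_ ?_
  · simp only [Prod.fst_add, add_zero, h2, Prod.smul_fst, smul_eq_mul, ht]
    field_simp
  · simp

end LA

/-- anti-invariant forms in complex coordinates -/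
theorem anti_form {J : HS.E4 →L[ℝ] HS.E4} (sq : ∀ v, J (J v) = -v) {K : HS.E4 →L[ℝ] C2}
    (hK : Function.Injective K) (hJ : ∀ v, K (J v) = I • K v) {n1 t1 : HS.E4} (h1 : K n1 = (1, 0))
    (h2 : K t1 = (0, 1)) {B : Al2 HS.E4} (anti : ∀ u v, B ![J u, J v] = - B ![u, v])
    (u v : HS.E4) : B ![u, v] = 2 * B ![n1, t1] * (om0 (K u) (K v)).re +
      2 * B ![n1, J t1] * (om0 (K u) (K v)).im := by
  have hexp : ∀ u, u = (K u).1.re • n1 + (K u).1.im • J n1 + (K u).2.re • t1 + (K u).2.im • J t1 := by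
    intro u
    apply hK
    simp only [map_add, map_smul, hJ, h1, h2]
    refine Prod.ext ?_ ?_ <;> apply Complex.ext <;> simp
  have e1 := anti_self sq anti n1
  have e2 := anti_self sq anti t1
  have e3 := anti_J sq anti n1 t1
  have e4 := anti n1 t1
  have s := bl_swap B
  have s0 : ∀ x, bl B x x = 0 := fun x => by rw [bl_apply, alt2_self]
  simp only [← bl_apply] at e1 e2 e3 e4 ⊢
  conv_lhs => rw [hexp u, hexp v]
  simp only [map_add, map_smul, ContinuousLinearMap.add_apply, ContinuousLinearMap.smul_apply,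
    smul_eq_mul, s0, s n1 (J n1), s t1 (J t1), s n1 t1, s (J n1) t1, s n1 (J t1),
    s (J n1) (J t1), e1, e2, e3, e4, om0]
  simp only [div_ofNat_re, div_ofNat_im, sub_re, sub_im, mul_re, mul_im]
  ring

theorem KC.convex {J : HS.E4 →L[ℝ] HS.E4} {B : Al2 HS.E4} {sg : ℝ} {d : ℂ →L[ℝ] HS.E4}
    {K K' : HS.E4 →L[ℝ] C2} (h : KC J B sg d K) (h' : KC J B sg d K') {a b : ℝ} (hab : a + b = 1) :
    KC J B sg d (a • K + b • K') where
  hJ := fun v => by
    simp only [ContinuousLinearMap.add_apply, ContinuousLinearMap.smul_apply, Prod.snd_add,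
      Prod.smul_snd, h.hJ, h'.hJ, real_smul]
    ring
  hd := fun c => by
    simp only [ContinuousLinearMap.add_apply, ContinuousLinearMap.smul_apply, Prod.snd_add,
      Prod.smul_snd, h.hd, h'.hd]
    rw [← add_smul, hab, one_smul]
  hB := fun v c => by
    have e1 := h.hB v c
    have e2 := h'.hB v c
    simp only [ContinuousLinearMap.add_apply, ContinuousLinearMap.smul_apply, Prod.fst_add,
      Prod.smul_fst, add_mul, smul_mul_assoc, add_re, smul_re, smul_eq_mul]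
    linear_combination a * e1 + b * e2 + (sg * B ![v, d c]) * hab

/-- the differential of the transition map along the zero section -/
def dTr (ζ : ℂ) : C2 →L[ℝ] C2 :=
  (ContinuousLinearMap.mul ℝ ℂ (ζ ^ 2)).prodMap (ContinuousLinearMap.mul ℝ ℂ (-(ζ ^ 2)⁻¹))

theorem dTr_apply (ζ : ℂ) (a : C2) : dTr ζ a = (ζ ^ 2 * a.1, -(ζ ^ 2)⁻¹ * a.2) := rfl

theorem hasFDerivAt_inv_c {ζ : ℂ} (h : ζ ≠ 0) :
    HasFDerivAt (fun z : ℂ => z⁻¹) (ContinuousLinearMap.mul ℝ ℂ (-(ζ ^ 2)⁻¹)) ζ := by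
  have h1 := (hasDerivAt_inv h).hasFDerivAt.restrictScalars ℝ
  refine h1.congr_fderiv ?_
  refine ContinuousLinearMap.ext fun a => ?_
  simp [mul_comm]

theorem hasFDerivAt_Tr {ζ : ℂ} (h : ζ ≠ 0) : HasFDerivAt Tr (dTr ζ) (0, ζ) := by
  have h1 : HasFDerivAt (fun z : C2 => z.2⁻¹) _ (0, ζ) :=
    (hasFDerivAt_inv_c h).comp (0, ζ) (hasFDerivAt_snd (𝕜 := ℝ))
  have h2 := (hasFDerivAt_fst (𝕜 := ℝ) (p := ((0, ζ) : C2))).mul
    ((hasFDerivAt_snd (𝕜 := ℝ) (p := ((0, ζ) : C2))).pow 2)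
  refine (h2.prodMk h1).congr_fderiv ?_
  refine ContinuousLinearMap.ext fun a => ?_
  simp [dTr_apply]

theorem KC.trans {J : HS.E4 →L[ℝ] HS.E4} {B : Al2 HS.E4} {sg : ℝ} {d d' : ℂ →L[ℝ] HS.E4}
    {K : HS.E4 →L[ℝ] C2} (h : KC J B sg d K) {ζ : ℂ} (hζ : ζ ≠ 0)
    (hd : ∀ a, d' a = d (-ζ ^ 2 * a)) : KC J B (-sg) d' ((dTr ζ).comp K) where
  hJ := fun v => by
    simp only [ContinuousLinearMap.comp_apply, dTr_apply, h.hJ]; ring
  hd := fun a => by
    simp only [ContinuousLinearMap.comp_apply, dTr_apply, hd, h.hd]; field_simp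
  hB := fun v a => by
    have e := h.hB v (-ζ ^ 2 * a)
    simp only [ContinuousLinearMap.comp_apply, dTr_apply, hd]
    have e2 : (K v).1 * (-ζ ^ 2 * a) = -(ζ ^ 2 * (K v).1 * a) := by ring
    rw [e2, neg_re] at e
    linarith

end Vale.Agent.P247S
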