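import Vale.Agent.P247S.B2
import Vale.Agent.P247S.A4

/-!
# P247, block S: adapted coordinates near a point of the sphere
-/

set_option linter.all false

open scoped ContDiff Topology Manifold
open Set Filter Complex

noncomputable section

namespace Vale.Agent.P247S
open Vale.Agent.P247X (om0 Nr EndF)
open Vale.Agent.P247.SCY Vale.Agent.P247.SCY.HS
open Vale.Agent.P204.Mfd (dsym dch mdiff_symm mdiff_chart Jat endRep)

/-- the normal complex line -/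
def nu (n0 m0 : HS.E4) (c : ℂ) : ℂ →L[ℝ] HS.E4 :=
  (reCLM.smulRight n0 + imCLM.smulRight m0).comp (ContinuousLinearMap.mul ℝ ℂ (2 * c)⁻¹)

theorem nu_apply (n0 m0 : HS.E4) (c a : ℂ) :
    nu n0 m0 c a = ((2 * c)⁻¹ * a).re • n0 + ((2 * c)⁻¹ * a).im • m0 := rfl

/-- the normalising factor -/
def cc (B : Al2 HS.E4) (sg : ℝ) (d : ℂ →L[ℝ] HS.E4) (n0 : HS.E4) : ℂ :=
  mkC (sg * B ![n0, d 1]) (-(sg * B ![n0, d I]))

namespace LA
variable {J : HS.E4 →L[ℝ] HS.E4} {B : Al2 HS.E4} {d : ℂ →L[ℝ] HS.E4} (h : LA J B d)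
include h

theorem nu_I (n0 : HS.E4) (c a : ℂ) : nu n0 (J n0) c (I * a) = J (nu n0 (J n0) c a) := by
  rw [nu_apply, nu_apply, mul_left_comm, map_add, map_smul, map_smul, h.sq]
  generalize (2 * c)⁻¹ * a = t
  simp [add_comm]

theorem nu_B {sg : ℝ} {n0 : HS.E4} (hc : cc B sg d n0 ≠ 0) (a b : ℂ) :
    sg * B ![nu n0 (J n0) (cc B sg d n0) a, d b] = (a * b).re / 2 := by
  set c := cc B sg d n0 with hcdef
  set t := (2 * c)⁻¹ * a with ht
  have ha : a = 2 * (c * t) := by rw [ht]; field_simp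
  have e1 := anti_J h.sq h.anti n0 (d 1)
  have e2 := h.anti n0 (d 1)
  rw [nu_apply, ← ht, ha, clm_complex d b, hcdef, cc, h.hol]
  simp only [← bl_apply] at e1 e2 ⊢
  simp only [map_add, map_smul, ContinuousLinearMap.add_apply, ContinuousLinearMap.smul_apply,
    smul_eq_mul, e1, e2, mul_re, mul_im, mkC_re, mkC_im, re_ofNat, im_ofNat]
  ring

theorem D_inj {sg : ℝ} {n0 : HS.E4} (hc : cc B sg d n0 ≠ 0) :
    Function.Injective ((nu n0 (J n0) (cc B sg d n0)).coprod d) := by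
  rw [injective_iff_map_eq_zero]
  rintro ⟨a, b⟩ hab
  rw [ContinuousLinearMap.coprod_apply] at hab
  have h1 : nu n0 (J n0) (cc B sg d n0) a = d (-b) := by
    rw [map_neg]; exact eq_neg_of_add_eq_zero_left hab
  have h2 : a = 0 := re_mul_ext fun x => by
    have := h.nu_B hc a x
    rw [h1, h.dd_zero h.anti] at this
    simp only [zero_mul, zero_re]
    linarith
  subst h2
  rw [map_zero, zero_add] at hab
  have h3 : b = 0 := h.d_inj hab
  rw [h3]; rfl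

theorem kc_of_inv {sg : ℝ} (hs : sg * sg = 1) {n0 : HS.E4} (hc : cc B sg d n0 ≠ 0)
    {K : HS.E4 →L[ℝ] C2} (hK : ∀ z, K ((nu n0 (J n0) (cc B sg d n0)).coprod d z) = z) :
    KC J B sg d K := by
  have hsurj := (bij_of_inj _ (h.D_inj hc)).2
  refine ⟨fun v => ?_, fun a => ?_, fun v a => ?_⟩
  · obtain ⟨⟨a, b⟩, rfl⟩ := hsurj v
    have h1 : J ((nu n0 (J n0) (cc B sg d n0)).coprod d (a, b)) =
        (nu n0 (J n0) (cc B sg d n0)).coprod d (I * a, I * b) := by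
      simp only [ContinuousLinearMap.coprod_apply, map_add, h.nu_I, h.dI]
    rw [h1, hK, hK]
  · have h1 := hK (0, a)
    rw [ContinuousLinearMap.coprod_apply, map_zero, zero_add] at h1
    rw [h1]
  · obtain ⟨⟨x, b⟩, rfl⟩ := hsurj v
    rw [hK, ContinuousLinearMap.coprod_apply, ← h.nu_B hc, ← bl_apply, ← bl_apply, map_add,
      ContinuousLinearMap.add_apply, bl_apply B (d b), h.dd_zero h.anti, add_zero]

theorem transfer {A A' : HS.E4 →L[ℝ] HS.E4} (h1 : ∀ v, A' (A v) = v) (h2 : ∀ v, A (A' v) = v) :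
    LA (A.comp (J.comp A')) (B.compContinuousLinearMap A') (A.comp d) where
  sq := fun v => by simp only [ContinuousLinearMap.comp_apply, h1, h.sq, map_neg, h2]
  anti := fun u v => by simp only [comp2_apply, ContinuousLinearMap.comp_apply, h1, h.anti]
  nd := fun v hv => by
    have : A' v = 0 := h.nd _ fun w => by
      have := hv (A w)
      rwa [comp2_apply, h1] at this
    rw [← h2 v, this, map_zero]
  hol := by simp only [ContinuousLinearMap.comp_apply, h1, h.hol]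
  ne := fun h0 => h.ne (by
    rw [← h1 (d 1)]
    have : A (d 1) = 0 := h0
    rw [this, map_zero])

end LA

theorem KC.back {J : HS.E4 →L[ℝ] HS.E4} {B : Al2 HS.E4} {d : ℂ →L[ℝ] HS.E4} {sg : ℝ}
    {A A' : HS.E4 →L[ℝ] HS.E4} (h1 : ∀ v, A' (A v) = v) {K : HS.E4 →L[ℝ] C2}
    (h : KC (A.comp (J.comp A')) (B.compContinuousLinearMap A') sg (A.comp d) K) :
    KC J B sg d (K.comp A) where
  hJ := fun v => by
    have := h.hJ (A v)
    simpa only [ContinuousLinearMap.comp_apply, h1] using this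
  hd := fun a => h.hd a
  hB := fun v a => by
    have := h.hB (A v) a
    simpa only [ContinuousLinearMap.comp_apply, h1, comp2_apply] using this

variable {X : Type} [TopologicalSpace X] [ChartedSpace HS.E4 X] [IsManifold (𝓡 4) ∞ X]

theorem loc_g {J : EndF X} (hJ : ∀ e ∈ atlas HS.E4 X, ContDiffOn ℝ ∞ (endRep e J) e.target)
    {w0 : Form X 2} (hw : Smooth w0) {u : ℂ → X} (hu : ContMDiff 𝓘(ℝ, ℂ) (𝓡 4) ∞ u)
    (hla : ∀ ζ, LA (Jat J (u ζ)) (bx w0 (u ζ)) (dG u ζ)) {sg : ℝ} (hs : sg * sg = 1) (ζ0 : ℂ) :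
    ∃ W, IsOpen W ∧ ∃ N, IsOpen N ∧ ζ0 ∈ N ∧ ∃ g : X → C2,
      ContMDiffOn (𝓡 4) 𝓘(ℝ, C2) ∞ g W ∧ ∀ ζ ∈ N, u ζ ∈ W ∧ g (u ζ) = (0, ζ) ∧
        KC (Jat J (u ζ)) (bx w0 (u ζ)) sg (dG u ζ) (dF g (u ζ)) := by
  set e := chartAt HS.E4 (u ζ0)
  have he : e ∈ atlas HS.E4 X := chart_mem_atlas _ _
  have hs0 : u ζ0 ∈ e.source := mem_chart_source _ _
  set ut : ℂ → HS.E4 := fun ζ => e (u ζ) with hut
  set Jt : ℂ → HS.E4 →L[ℝ] HS.E4 := fun ζ => endRep e J (ut ζ) with hJt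
  set Bt : ℂ → Al2 HS.E4 := fun ζ => loc e w0 (ut ζ) with hBt
  have eJ : ∀ ζ, u ζ ∈ e.source →
      Jt ζ = (dch e (u ζ)).comp ((Jat J (u ζ)).comp (dsym e (e (u ζ)))) := by
    intro ζ hζ
    have h1 : Jt ζ = (dch e (e.symm (e (u ζ)))).comp ((Jat J (e.symm (e (u ζ)))).comp
      (dsym e (e (u ζ)))) := rfl
    rw [h1, e.left_inv hζ]
  have eB : ∀ ζ, u ζ ∈ e.source →
      Bt ζ = (bx w0 (u ζ)).compContinuousLinearMap (dsym e (e (u ζ))) := by
    intro ζ hζ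
    simp only [hBt, hut, loc2, e.left_inv hζ]
  have ed : ∀ ζ, u ζ ∈ e.source → fderiv ℝ ut ζ = (dch e (u ζ)).comp (dG u ζ) := fun ζ hζ =>
    fderiv_chart he hζ ((hu ζ).mdifferentiableAt (by simp))
  have hla' : ∀ ζ, u ζ ∈ e.source → LA (Jt ζ) (Bt ζ) (fderiv ℝ ut ζ) := by
    intro ζ hζ
    rw [eJ ζ hζ, eB ζ hζ, ed ζ hζ]
    exact (hla ζ).transfer (dsym_dch' he hζ) (dch_dsym' he hζ)
  obtain ⟨n0, hn0⟩ := (hla' ζ0 hs0).exists_n0
  set c : ℂ → ℂ := fun ζ => cc (Bt ζ) sg (fderiv ℝ ut ζ) n0 with hc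
  have s1 : ∀ ζ, u ζ ∈ e.source → ContDiffAt ℝ ∞ ut ζ := fun ζ hζ => cd_chart he hζ (hu ζ)
  have s2 : ∀ ζ, u ζ ∈ e.source → ContDiffAt ℝ ∞ Jt ζ := fun ζ hζ =>
    ContDiffAt.comp (g := endRep e J) (f := ut) ζ ((hJ e he _ (e.map_source hζ)).contDiffAt
      (e.open_target.mem_nhds (e.map_source hζ))) (s1 ζ hζ)
  have s3 : ∀ ζ, u ζ ∈ e.source → ContDiffAt ℝ ∞ c ζ := by
    intro ζ hζ
    have h1 : ContDiffAt ℝ ∞ Bt ζ :=
      ContDiffAt.comp (g := loc e w0) (f := ut) ζ ((hw e he _ (e.map_source hζ)).contDiffAt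
        (e.open_target.mem_nhds (e.map_source hζ))) (s1 ζ hζ)
    have h2 := cda (E := Al2 HS.E4) (F := Bil HS.E4) bl h1
    have h3 := (s1 ζ hζ).fderiv_right (m := ∞) (by simp)
    have h4 : ∀ a, ContDiffAt ℝ ∞ (fun ζ => sg * Bt ζ ![n0, fderiv ℝ ut ζ a]) ζ := by
      intro a
      simp only [← bl_apply]
      exact contDiffAt_const.mul ((h2.clm_apply contDiffAt_const).clm_apply
        (h3.clm_apply contDiffAt_const))
    exact cd_mkC (h4 1) (h4 I).neg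
  have hc0 : c ζ0 ≠ 0 := by
    intro h0
    have h1 := congrArg Complex.re h0
    simp only [hc, cc, mkC_re, zero_re] at h1
    rcases mul_eq_zero.1 h1 with h2 | h2
    · rw [h2] at hs; norm_num at hs
    · exact hn0 h2
  have hN : ∀ᶠ ζ in 𝓝 ζ0, u ζ ∈ e.source ∧ c ζ ≠ 0 :=
    Filter.Eventually.and (hu.continuous.continuousAt.preimage_mem_nhds
      (e.open_source.mem_nhds hs0)) ((s3 ζ0 hs0).continuousAt.eventually_ne hc0)
  obtain ⟨N0, hN1, hN2, hN3⟩ := mem_nhds_iff.1 hN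
  set ν : ℂ → ℂ →L[ℝ] HS.E4 := fun ζ => nu n0 (Jt ζ n0) (c ζ) with hν
  have s4 : ∀ ζ ∈ N0, ContDiffAt ℝ ∞ ν ζ := by
    intro ζ hζ
    obtain ⟨h1, h2⟩ := hN1 hζ
    refine ContDiffAt.clm_comp (contDiffAt_const.add (contDiffAt_const.smulRight
      ((s2 ζ h1).clm_apply contDiffAt_const))) ?_
    exact cda (ContinuousLinearMap.mul ℝ ℂ) ((contDiffAt_const.mul (s3 ζ h1)).inv
      (mul_ne_zero two_ne_zero h2))
  set G : C2 → HS.E4 := fun z => ν z.2 z.1 + ut z.2 with hG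
  have s5 : ∀ z ∈ Prod.snd ⁻¹' N0, ContDiffAt ℝ ∞ G z := fun z hz =>
    (((s4 _ hz).comp z contDiffAt_snd).clm_apply contDiffAt_fst).add
      ((s1 _ (hN1 hz).1).comp z contDiffAt_snd)
  have dG' : ∀ ζ ∈ N0, HasFDerivAt G ((ν ζ).coprod (fderiv ℝ ut ζ)) (0, ζ) := by
    intro ζ hζ
    have h1 := HasFDerivAt.comp (g := ν) (f := Prod.snd) ((0, ζ) : C2)
      ((s4 ζ hζ).differentiableAt (by simp)).hasFDerivAt (hasFDerivAt_snd (𝕜 := ℝ))
    have h2 := HasFDerivAt.comp (g := ut) (f := Prod.snd) ((0, ζ) : C2)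
      ((s1 ζ (hN1 hζ).1).differentiableAt (by simp)).hasFDerivAt (hasFDerivAt_snd (𝕜 := ℝ))
    refine ((h1.clm_apply (hasFDerivAt_fst (𝕜 := ℝ))).add h2).congr_fderiv ?_
    refine ContinuousLinearMap.ext fun a => ?_
    simp
  obtain ⟨φ, h0, hφO, hφG, hφs⟩ := ift (hN2.preimage continuous_snd) s5 (z0 := (0, ζ0)) hN3
    (by rw [(dG' ζ0 hN3).fderiv]; exact bij_of_inj _ ((hla' ζ0 hs0).D_inj hc0))
  have G0 : ∀ ζ, φ (0, ζ) = e (u ζ) := by
    intro ζ; rw [hφG]; simp only [hG, map_zero, zero_add, hut]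
  refine ⟨e.source ∩ e ⁻¹' φ.target, e.isOpen_inter_preimage φ.open_target,
    (fun ζ : ℂ => ((0 : ℂ), ζ)) ⁻¹' φ.source, φ.open_source.preimage (by fun_prop), h0,
    fun y => φ.symm (e y), fun y hy => ?_, fun ζ hζ => ?_⟩
  · exact ((hφs _ hy.2).contMDiffAt.comp y (chart_smooth he hy.1)).contMDiffWithinAt
  · have hζ0 : ζ ∈ N0 := hφO hζ
    have h1 := (hN1 hζ0).1
    have h2 : e (u ζ) ∈ φ.target := by rw [← G0]; exact φ.map_source hζ
    refine ⟨⟨h1, h2⟩, by beta_reduce; rw [← G0]; exact φ.left_inv hζ, ?_⟩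
    have h3 : (fun z => φ.symm (e (e.symm z))) =ᶠ[𝓝 (e (u ζ))] φ.symm := by
      filter_upwards [e.open_target.mem_nhds (e.map_source h1)] with z hz
      rw [e.right_inv hz]
    rw [dF_chart (Ψ := fun y => φ.symm (e y)) he h1 (((hφs _ h2).contMDiffAt.comp _ (chart_smooth he h1)).mdifferentiableAt
      (by simp)), h3.fderiv_eq]
    apply KC.back (dsym_dch' he h1)
    rw [← eJ ζ h1, ← eB ζ h1, ← ed ζ h1]
    apply (hla' ζ h1).kc_of_inv hs (hN1 hζ0).2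
    intro z
    have h4 : HasFDerivAt φ.symm (fderiv ℝ φ.symm (e (u ζ))) (G (0, ζ)) := by
      rw [← hφG, G0]; exact ((hφs _ h2).differentiableAt (by simp)).hasFDerivAt
    have h5 := h4.comp (0, ζ) (dG' ζ hζ0)
    have h6 : φ.symm ∘ G =ᶠ[𝓝 (0, ζ)] id := by
      filter_upwards [φ.open_source.mem_nhds hζ] with z hz
      rw [Function.comp_apply, ← hφG, φ.left_inv hz]; rfl
    exact DFunLike.congr_fun ((h5.congr_of_eventuallyEq h6.symm).unique (hasFDerivAt_id _)) z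

end Vale.Agent.P247S
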