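import Vale.Agent.P247S.B3

/-!
# P247, block S: a map to `ℝ³ × ℝ³` with the right jet along the sphere
-/

set_option linter.all false

open scoped ContDiff Topology Manifold
open Set Filter Complex

noncomputable section

namespace Vale.Agent.P247S
open Vale.Agent.P247X (om0 Nr EndF Sph)
open Vale.Agent.P247.SCY Vale.Agent.P247.SCY.HS
open Vale.Agent.P204.Mfd (dsym dch mdiff_symm mdiff_chart Jat endRep)

/-- complementary model charts -/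
structure Pr (M M' : MC) : Prop where
  glue : ∀ z : C2, z.2 ≠ 0 → M'.m (Tr z) = M.m z
  sg : M'.sg = -M.sg
  sep : ∀ z z', M.m z = M'.m z' → z.2 ≠ 0
  cov : ∀ z : V6, 0 < dot z.1 z.1 → z ∈ M.D ∨ z ∈ M'.D

theorem Tr_Tr {z : C2} (h : z.2 ≠ 0) : Tr (Tr z) = z := by
  refine Prod.ext ?_ (inv_inv _)
  show z.1 * z.2 ^ 2 * z.2⁻¹ ^ 2 = z.1
  field_simp

theorem pr12 : Pr M1 M2 := ⟨fun z hz => M_glue hz, rfl, fun z z' h => M_sep h, fun z => M_cover⟩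

theorem pr21 : Pr M2 M1 := by
  refine ⟨fun z hz => ?_, by show (1 : ℝ) = -(-1); norm_num, fun z z' h h0 => ?_,
    fun z hz => (M_cover hz).symm⟩
  · rw [← M_glue (z := Tr z) (inv_ne_zero hz), Tr_Tr hz]
  · have h1 := M_sep h.symm
    have h2 := M2.inj (h.trans (M_glue h1).symm)
    rw [h2] at h0
    exact inv_ne_zero h1 h0

variable {X : Type} [TopologicalSpace X] [ChartedSpace HS.E4 X] {J : EndF X}

theorem v_inj (S : Sph J) : Function.Injective S.v := by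
  intro z z' h
  by_cases h1 : z = 0 <;> by_cases h2 : z' = 0
  · rw [h1, h2]
  · exact absurd ⟨_, by rw [← h1, h, S.glue _ h2]⟩ S.inf
  · exact absurd ⟨_, by rw [← h2, ← h, S.glue _ h1]⟩ S.inf
  · rw [S.glue _ h1, S.glue _ h2] at h
    exact inv_injective (S.inj h)

/-- the sphere with the two charts exchanged -/
def flip (S : Sph J) : Sph J where
  u := S.v
  v := S.u
  u_smooth := S.v_smooth
  v_smooth := S.u_smooth
  glue := fun z hz => by rw [S.glue _ (inv_ne_zero hz), inv_inv]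
  inj := v_inj S
  inf := by
    rintro ⟨z, hz⟩
    by_cases h : z = 0
    · exact S.inf ⟨0, by rw [← hz, h]⟩
    · rw [S.glue _ h] at hz
      exact inv_ne_zero h (S.inj hz)
  u_imm := S.v_imm
  v_imm := S.u_imm
  u_hol := S.v_hol
  v_hol := S.u_hol

theorem mem_set (S : Sph J) {y : X} : y ∈ S.set ↔ (∃ ζ, S.u ζ = y) ∨ ∃ ζ, S.v ζ = y := by
  constructor
  · rintro (h | h)
    · exact Or.inr ⟨0, h.symm⟩
    · exact Or.inl h
  · rintro (h | ⟨ζ, rfl⟩)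
    · exact Or.inr h
    · by_cases h : ζ = 0
      · exact Or.inl (by rw [h])
      · exact Or.inr ⟨_, (S.glue _ h).symm⟩

theorem flip_set (S : Sph J) : (flip S).set = S.set := by
  ext y; rw [mem_set, mem_set]; exact or_comm

theorem set_cover (S : Sph J) {R : ℝ} (hR : 0 < R) {y : X} (hy : y ∈ S.set) :
    y ∈ S.u '' Metric.closedBall 0 R ∨ y ∈ S.v '' Metric.closedBall 0 R⁻¹ := by
  rcases hy with rfl | ⟨ζ, rfl⟩
  · exact Or.inr ⟨0, by simp [hR.le], rfl⟩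
  · by_cases h : ‖ζ‖ ≤ R
    · exact Or.inl ⟨ζ, by simpa using h, rfl⟩
    · have h1 : R < ‖ζ‖ := not_le.1 h
      have h2 : ζ ≠ 0 := by intro h0; rw [h0, norm_zero] at h1; linarith
      refine Or.inr ⟨ζ⁻¹, ?_, by rw [S.glue _ (inv_ne_zero h2), inv_inv]⟩
      rw [mem_closedBall_zero_iff, norm_inv]
      exact inv_anti₀ hR h1.le

theorem set_compact (S : Sph J) : IsCompact S.set := by
  have : S.set = S.u '' Metric.closedBall 0 1 ∪ S.v '' Metric.closedBall 0 1⁻¹ := by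
    refine Subset.antisymm (fun y hy => set_cover S one_pos hy) ?_
    rintro y (⟨ζ, -, rfl⟩ | ⟨ζ, -, rfl⟩)
    · exact (mem_set S).2 (Or.inl ⟨ζ, rfl⟩)
    · exact (mem_set S).2 (Or.inr ⟨ζ, rfl⟩)
  rw [this]
  exact ((isCompact_closedBall _ _).image S.u_smooth.continuous).union
    ((isCompact_closedBall _ _).image S.v_smooth.continuous)

/-- the condition on the jet -/
def Cond (J : EndF X) (w0 : Form X 2) (M : MC) (u : ℂ → X) (ζ : ℂ) (L : HS.E4 →L[ℝ] V6) : Prop :=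
  ∃ K : HS.E4 →L[ℝ] C2, L = (fderiv ℝ M.m (0, ζ)).comp K ∧
    KC (Jat J (u ζ)) (bx w0 (u ζ)) M.sg (dG u ζ) K

theorem cond_convex (w0 : Form X 2) (M : MC) (u : ℂ → X) (ζ : ℂ) :
    Convex ℝ {L | Cond J w0 M u ζ L} := by
  rintro _ ⟨K, rfl, hK⟩ _ ⟨K', rfl, hK'⟩ a b _ _ hab
  refine ⟨a • K + b • K', ?_, hK.convex hK' hab⟩
  simp only [ContinuousLinearMap.comp_add, ContinuousLinearMap.comp_smul]

theorem dG_v (S : Sph J) {ζ : ℂ} (h : ζ ≠ 0) (a : ℂ) :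
    dG S.v ζ⁻¹ a = dG S.u ζ (-ζ ^ 2 * a) := by
  have h1 : S.v =ᶠ[𝓝 ζ⁻¹] S.u ∘ fun z => z⁻¹ := by
    filter_upwards [isOpen_ne.mem_nhds (inv_ne_zero h)] with z hz using S.glue z hz
  have h2 := hasFDerivAt_inv_c (inv_ne_zero h)
  have h3 := mfderiv_comp_of_eq (I := 𝓘(ℝ, ℂ)) (I' := 𝓘(ℝ, ℂ)) (I'' := 𝓡 4) (x := ζ⁻¹) (y := ζ)
    (g := S.u) (f := fun z => z⁻¹) ((S.u_smooth ζ).mdifferentiableAt (by simp))
    h2.differentiableAt.mdifferentiableAt (inv_inv ζ)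
  have h4 : dG S.v ζ⁻¹ = mfderiv 𝓘(ℝ, ℂ) (𝓡 4) (S.u ∘ fun z => z⁻¹) ζ⁻¹ := h1.mfderiv_eq
  rw [h4, h3, mfderiv_eq_fderiv, h2.fderiv]
  show mfderiv 𝓘(ℝ, ℂ) (𝓡 4) S.u ζ⁻¹⁻¹ (-(ζ⁻¹ ^ 2)⁻¹ * a) = _
  rw [inv_inv, inv_pow, inv_inv]
  rfl

theorem cond_trans (S : Sph J) {w0 : Form X 2} {M M' : MC} (hp : Pr M M') {ζ : ℂ} (h : ζ ≠ 0)
    {L : HS.E4 →L[ℝ] V6} (hL : Cond J w0 M S.u ζ L) : Cond J w0 M' S.v ζ⁻¹ L := by
  obtain ⟨K, rfl, hK⟩ := hL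
  refine ⟨(dTr ζ).comp K, ?_, ?_⟩
  · have h1 : M.m =ᶠ[𝓝 (0, ζ)] M'.m ∘ Tr := by
      filter_upwards [(isOpen_ne.preimage continuous_snd).mem_nhds (show ((0, ζ) : C2) ∈
        Prod.snd ⁻¹' {z | z ≠ 0} from h)] with z hz using (hp.glue z hz).symm
    have h2 : Tr (0, ζ) = (0, ζ⁻¹) := by simp [Tr]
    have h3 := (M'.diff (Tr (0, ζ))).hasFDerivAt.comp (0, ζ) (hasFDerivAt_Tr h)
    rw [h1.fderiv_eq, h3.fderiv, h2]
    rfl
  · rw [S.glue _ (inv_ne_zero h), inv_inv, hp.sg]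
    exact hK.trans h (dG_v S h)

/-- value and jet conditions in both charts -/
def Gd (S : Sph J) (w0 : Form X 2) (M M' : MC) (y : X) (c : V6) (L : HS.E4 →L[ℝ] V6) : Prop :=
  (∀ ζ, S.u ζ = y → c = M.m (0, ζ) ∧ Cond J w0 M S.u ζ L) ∧
    ∀ ζ, S.v ζ = y → c = M'.m (0, ζ) ∧ Cond J w0 M' S.v ζ L

theorem gd_of (S : Sph J) {w0 : Form X 2} {M M' : MC} (hp : Pr M M') {ζ : ℂ}
    {L : HS.E4 →L[ℝ] V6} (hL : Cond J w0 M S.u ζ L) : Gd S w0 M M' (S.u ζ) (M.m (0, ζ)) L := by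
  refine ⟨fun ζ' h => ?_, fun ζ' h => ?_⟩
  · rw [S.inj h]; exact ⟨rfl, hL⟩
  · have h1 : ζ' ≠ 0 := fun h0 => S.inf ⟨ζ, by rw [← h, h0]⟩
    rw [S.glue _ h1] at h
    have h2 := S.inj h
    have h3 : ζ ≠ 0 := by rw [← h2]; exact inv_ne_zero h1
    have h4 : ζ' = ζ⁻¹ := by rw [← h2, inv_inv]
    rw [h4]
    refine ⟨?_, cond_trans S hp h3 hL⟩
    rw [← hp.glue (0, ζ) h3]; simp [Tr]

variable [IsManifold (𝓡 4) ∞ X] [T2Space X]

theorem dF_comp {V W : Type} [NormedAddCommGroup V] [NormedSpace ℝ V] [NormedAddCommGroup W]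
    [NormedSpace ℝ W] {g : X → V} {m : V → W} {y : X} (hg : MDifferentiableAt (𝓡 4) 𝓘(ℝ, V) g y)
    (hm : DifferentiableAt ℝ m (g y)) :
    dF (fun y => m (g y)) y = (fderiv ℝ m (g y)).comp (dF g y) := by
  have h1 := mfderiv_comp (I := 𝓡 4) (I' := 𝓘(ℝ, V)) (I'' := 𝓘(ℝ, W)) y hm.mdifferentiableAt hg
  rw [mfderiv_eq_fderiv] at h1
  exact h1

theorem loc_F (hJ : ∀ e ∈ atlas HS.E4 X, ContDiffOn ℝ ∞ (endRep e J) e.target)
    {w0 : Form X 2} (hw : Smooth w0) (S : Sph J)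
    (hla : ∀ ζ, LA (Jat J (S.u ζ)) (bx w0 (S.u ζ)) (dG S.u ζ)) {M M' : MC} (hp : Pr M M')
    (ζ0 : ℂ) : ∃ U, IsOpen U ∧ S.u ζ0 ∈ U ∧ ∃ F : X → V6, ContMDiffOn (𝓡 4) 𝓘(ℝ, V6) ∞ F U ∧
      ∀ s ∈ S.set, s ∈ U → Gd S w0 M M' s (F s) (dF F s) := by
  obtain ⟨W, hW, N, hN, h0, g, hg, hgN⟩ := loc_g hJ hw S.u_smooth hla M.sg_sq ζ0
  set R := ‖ζ0‖ + 1 with hR
  have hR0 : 0 < R := by positivity
  set Z := S.u '' (Metric.closedBall 0 R \ N) ∪ S.v '' Metric.closedBall 0 R⁻¹ with hZ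
  have hZc : IsClosed Z := ((((isCompact_closedBall _ _).diff hN).image
    S.u_smooth.continuous).union ((isCompact_closedBall _ _).image S.v_smooth.continuous)).isClosed
  refine ⟨W ∩ Zᶜ, hW.inter hZc.isOpen_compl, ⟨(hgN _ h0).1, ?_⟩, fun y => M.m (g y),
    M.m_smooth.contMDiff.comp_contMDiffOn (hg.mono inter_subset_left), fun s hs hsU => ?_⟩
  · rintro (⟨ζ, h1, h2⟩ | ⟨ζ, h1, h2⟩)
    · rw [S.inj h2] at h1; exact h1.2 h0
    · have h3 : ζ ≠ 0 := fun h => S.inf ⟨ζ0, by rw [← h2, h]⟩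
      rw [S.glue _ h3] at h2
      have h4 := S.inj h2
      rw [mem_closedBall_zero_iff] at h1
      have h5 : R ≤ ‖ζ0‖ := by
        rw [← h4, norm_inv]
        exact (le_inv_comm₀ hR0 (norm_pos_iff.2 h3)).2 h1
      linarith
  · rcases set_cover S hR0 hs with ⟨ζ, h1, rfl⟩ | h1
    · have h2 : ζ ∈ N := by
        by_contra h3
        exact hsU.2 (Or.inl ⟨ζ, ⟨h1, h3⟩, rfl⟩)
      obtain ⟨h3, h4, h5⟩ := hgN ζ h2
      beta_reduce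
      rw [dF_comp (((hg _ h3).contMDiffAt (hW.mem_nhds h3)).mdifferentiableAt (by simp))
        (M.diff _), h4]
      exact gd_of S hp ⟨_, rfl, h5⟩
    · exact absurd (Or.inr h1) hsU.2

theorem exists_F [CompactSpace X]
    (hJ : ∀ e ∈ atlas HS.E4 X, ContDiffOn ℝ ∞ (endRep e J) e.target)
    {w0 : Form X 2} (hw : Smooth w0) (S : Sph J)
    (hu : ∀ ζ, LA (Jat J (S.u ζ)) (bx w0 (S.u ζ)) (dG S.u ζ))
    (hv : ∀ ζ, LA (Jat J (S.v ζ)) (bx w0 (S.v ζ)) (dG S.v ζ)) :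
    ∃ F : X → V6, ContMDiff (𝓡 4) 𝓘(ℝ, V6) ∞ F ∧
      (∀ ζ, F (S.u ζ) = M1.m (0, ζ) ∧ Cond J w0 M1 S.u ζ (dF F (S.u ζ))) ∧
      ∀ ζ, F (S.v ζ) = M2.m (0, ζ) ∧ Cond J w0 M2 S.v ζ (dF F (S.v ζ)) := by
  classical
  set F0 : X → V6 := fun y => if h : ∃ ζ, S.u ζ = y then M1.m (0, h.choose) else M2.m (0, 0)
    with hF0
  have hval : ∀ s ∈ S.set, ∀ c L, Gd S w0 M1 M2 s c L → c = F0 s := by
    intro s hs c L h
    simp only [hF0]
    split_ifs with h1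
    · exact (h.1 _ h1.choose_spec).1
    · rcases hs with rfl | hs
      · exact (h.2 0 rfl).1
      · exact absurd hs h1
  obtain ⟨F, hF, hFS⟩ := jet (S := S.set) (F0 := F0) (C := fun s => {L | Gd S w0 M1 M2 s (F0 s) L})
    (fun y _ L hL L' hL' a b ha hb hab =>
      ⟨fun ζ h => ⟨(hL.1 ζ h).1, cond_convex w0 M1 S.u ζ (hL.1 ζ h).2 (hL'.1 ζ h).2 ha hb hab⟩,
        fun ζ h => ⟨(hL.2 ζ h).1, cond_convex w0 M2 S.v ζ (hL.2 ζ h).2 (hL'.2 ζ h).2 ha hb hab⟩⟩)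
    (by
      intro y
      by_cases hy : y ∈ S.set
      · have key : ∃ U, IsOpen U ∧ y ∈ U ∧ ∃ F : X → V6, ContMDiffOn (𝓡 4) 𝓘(ℝ, V6) ∞ F U ∧
            ∀ s ∈ S.set, s ∈ U → Gd S w0 M1 M2 s (F s) (dF F s) := by
          rcases (mem_set S).1 hy with ⟨ζ, rfl⟩ | ⟨ζ, rfl⟩
          · exact loc_F hJ hw S hu pr12 ζ
          · obtain ⟨U, h1, h2, F, h3, h4⟩ := loc_F hJ hw (flip S) hv pr21 ζ
            exact ⟨U, h1, h2, F, h3, fun s hs hU => (h4 s (by rwa [flip_set]) hU).symm⟩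
        obtain ⟨U, h1, h2, F, h3, h4⟩ := key
        refine ⟨U, h1, h2, F, h3, fun s hs hU => ?_⟩
        have h5 := hval s hs _ _ (h4 s hs hU)
        exact ⟨h5, by rw [← h5]; exact h4 s hs hU⟩
      · exact ⟨S.setᶜ, (set_compact S).isClosed.isOpen_compl, hy, fun _ => 0, contMDiffOn_const,
          fun s hs hU => absurd hs hU⟩)
  refine ⟨F, hF, fun ζ => ?_, fun ζ => ?_⟩
  · obtain ⟨h1, h2⟩ := hFS _ ((mem_set S).2 (Or.inl ⟨ζ, rfl⟩))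
    rw [h1]; exact h2.1 ζ rfl
  · obtain ⟨h1, h2⟩ := hFS _ ((mem_set S).2 (Or.inr ⟨ζ, rfl⟩))
    rw [h1]; exact h2.2 ζ rfl

end Vale.Agent.P247S
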