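import Vale.Agent.P247S.B4

/-!
# P247, block S: the tubular neighbourhood
-/

set_option linter.all false

open scoped ContDiff Topology Manifold
open Set Filter Complex

noncomputable section

namespace Vale.Agent.P247S
open Vale.Agent.P247X (om0 Nr EndF Sph)
open Vale.Agent.P247.SCY Vale.Agent.P247.SCY.HS
open Vale.Agent.P204.Mfd (dsym dch mdiff_symm mdiff_chart Jat endRep)

/-- the tube in `ℝ³ × ℝ³` -/
def TT (δ : ℝ) : Set V6 := {z | |dot z.1 z.1 - 1| < δ ∧ ff z < δ}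

theorem cont_dot1 : Continuous fun z : V6 => dot z.1 z.1 := cd_dot.continuous.comp continuous_fst

theorem TT_open (δ : ℝ) : IsOpen (TT δ) :=
  (isOpen_lt (cont_dot1.sub continuous_const).abs continuous_const).inter
    (isOpen_lt cd_ff.continuous continuous_const)

theorem ff_nonneg (z : V6) : 0 ≤ ff z := dot_nonneg _

theorem dot_rho {z : V6} (h : 0 < dot z.1 z.1) : dot (rho z).1 (rho z).1 = 1 := by
  have h1 := rr_sq z.1
  have h2 : rr z.1 ≠ 0 := (Real.sqrt_pos.2 h).ne'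
  have h3 : dot (rho z).1 (rho z).1 = (rr z.1)⁻¹ * (rr z.1)⁻¹ * dot z.1 z.1 := by
    simp only [rho, dot, Pi.smul_apply, smul_eq_mul]; ring
  rw [h3, ← h1]; field_simp

theorem ff_rho {z : V6} (h : 0 < dot z.1 z.1) : ff (rho z) ≤ ff z := by
  have h3 : ff (rho z) = ff z - dot z.2 z.1 ^ 2 / dot z.1 z.1 := by
    have h4 : ∀ t : ℝ, dot (z.2 - t • z.1) (z.2 - t • z.1) =
        dot z.2 z.2 - 2 * t * dot z.2 z.1 + t ^ 2 * dot z.1 z.1 := by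
      intro t; simp only [dot, Pi.sub_apply, Pi.smul_apply, smul_eq_mul]; ring
    simp only [ff, rho, h4]
    field_simp
    ring
  rw [h3]
  have : 0 ≤ dot z.2 z.1 ^ 2 / dot z.1 z.1 := by positivity
  linarith

theorem rho_zero {x : R3} (h : dot x x = 1) : rho (x, 0) = (x, 0) := by
  have h0 : dot 0 x = 0 := by simp [dot]
  simp [rho, rr, h, h0]

theorem eq_zero_of_dot {p : R3} (h : dot p p = 0) : p = 0 := by
  have := sq_norm_le p
  rw [h] at this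
  exact norm_eq_zero.1 (by nlinarith [norm_nonneg p])

theorem norm_le_of_dot {p : R3} {c : ℝ} (h : dot p p ≤ c) : ‖p‖ ≤ c + 1 := by
  have := sq_norm_le p
  nlinarith [norm_nonneg p, dot_nonneg p]

theorem compact_box (a b : ℝ) {Z : Set V6} (hZ : IsClosed Z)
    (h : ∀ z ∈ Z, dot z.1 z.1 ≤ a ∧ ff z ≤ b) : IsCompact Z := by
  refine (isCompact_closedBall (0 : V6) (max (a + 1) (b + 1))).of_isClosed_subset hZ fun z hz => ?_
  rw [mem_closedBall_zero_iff, Prod.norm_def]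
  exact max_le_max (norm_le_of_dot (h z hz).1) (norm_le_of_dot (h z hz).2)

theorem Pr.zero_pt {M M' : MC} (hp : Pr M M') {x : R3} (h : dot x x = 1) :
    (∃ ζ, M.m (0, ζ) = (x, 0)) ∨ ∃ ζ, M'.m (0, ζ) = (x, 0) := by
  have key : ∀ N : MC, (x, (0 : R3)) ∈ N.D → ∃ ζ, N.m (0, ζ) = (x, 0) := by
    intro N hN
    refine ⟨(N.n (x, 0)).2, ?_⟩
    rw [← N.n_zero x]
    exact (N.m_n _ hN).trans (rho_zero h)
  rcases hp.cov (x, 0) (by rw [h]; exact one_pos) with h1 | h1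
  · exact Or.inl (key M h1)
  · exact Or.inr (key M' h1)

variable {X : Type} [TopologicalSpace X] [ChartedSpace HS.E4 X] {J : EndF X}
  [IsManifold (𝓡 4) ∞ X] [T2Space X]

theorem loc_inv {F : X → V6} (hF : ContMDiff (𝓡 4) 𝓘(ℝ, V6) ∞ F) (M : MC) {s : X} {ζ : ℂ}
    (hs : F s = M.m (0, ζ)) {K : HS.E4 →L[ℝ] C2} (hK : Function.Bijective K)
    (hd : dF F s = (fderiv ℝ M.m (0, ζ)).comp K) :
    (∃ N ∈ 𝓝 s, InjOn (fun y => rho (F y)) N) ∧ ∀ U1, IsOpen U1 → s ∈ U1 →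
      ∃ O, IsOpen O ∧ M.m (0, ζ) ∈ O ∧ ∃ Φ : V6 → X, ∀ z ∈ O,
        ContMDiffAt 𝓘(ℝ, V6) (𝓡 4) ∞ Φ z ∧ Φ z ∈ U1 ∧ rho (F (Φ z)) = rho z := by
  set e := chartAt HS.E4 s
  have he : e ∈ atlas HS.E4 X := chart_mem_atlas _ _
  have hs0 : s ∈ e.source := mem_chart_source _ _
  have hD : F s ∈ M.D := by rw [hs]; exact M.m_mem _
  have hO : IsOpen (e.target ∩ e.symm ⁻¹' (F ⁻¹' M.D)) :=
    e.isOpen_inter_preimage_symm (M.D_open.preimage hF.continuous)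
  have hG : ∀ z ∈ e.target ∩ e.symm ⁻¹' (F ⁻¹' M.D),
      ContDiffAt ℝ ∞ (fun z => M.n (F (e.symm z))) z := fun z hz =>
    ContDiffAt.comp (g := M.n) (f := fun z => F (e.symm z)) z (M.n_smooth _ hz.2)
      (cd_symm he hz.1 (hF _))
  have h0 : e s ∈ e.target ∩ e.symm ⁻¹' (F ⁻¹' M.D) :=
    ⟨e.map_source hs0, by rw [mem_preimage, e.left_inv hs0]; exact hD⟩
  have hn : DifferentiableAt ℝ M.n (F s) := (M.n_smooth _ hD).differentiableAt (by simp)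
  have hFd : MDifferentiableAt (𝓡 4) 𝓘(ℝ, V6) F s := (hF s).mdifferentiableAt (by simp)
  have h1 : fderiv ℝ (fun z => M.n (F (e.symm z))) (e s) = K.comp (dsym e (e s)) := by
    rw [fderiv_symm (Ψ := fun y => M.n (F y)) he (e.map_source hs0)
      (by rw [e.left_inv hs0]; exact hn.mdifferentiableAt.comp s hFd), e.left_inv hs0,
      dF_comp hFd hn, hd, hs]
    refine ContinuousLinearMap.ext fun a => ?_
    simp only [ContinuousLinearMap.comp_apply, M.dn_dm]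
  obtain ⟨φ, hφ0, hφO, hφG, hφs⟩ := ift hO hG h0 (by
    rw [h1]
    exact hK.comp ⟨Function.LeftInverse.injective (dch_dsym' he hs0),
      Function.RightInverse.surjective (dsym_dch' he hs0)⟩)
  have hφy : ∀ y ∈ e.source, φ (e y) = M.n (F y) := by
    intro y hy; rw [hφG, e.left_inv hy]
  have hDy : ∀ y ∈ e.source, e y ∈ φ.source → F y ∈ M.D := by
    intro y hy h
    have := (hφO h).2
    rwa [mem_preimage, e.left_inv hy] at this
  refine ⟨⟨e.source ∩ e ⁻¹' φ.source,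
    (e.isOpen_inter_preimage φ.open_source).mem_nhds ⟨hs0, hφ0⟩, fun y hy y' hy' h => ?_⟩, ?_⟩
  · have h2 : M.m (M.n (F y)) = M.m (M.n (F y')) := by
      rw [M.m_n _ (hDy y hy.1 hy.2), M.m_n _ (hDy y' hy'.1 hy'.2)]; exact h
    have h3 := M.inj h2
    rw [← hφy y hy.1, ← hφy y' hy'.1] at h3
    exact e.injOn hy.1 hy'.1 (φ.injOn hy.2 hy'.2 h3)
  · intro U1 hU1 hsU
    have hsm : ∀ z ∈ M.D, M.n z ∈ φ.target →
        ContMDiffAt 𝓘(ℝ, V6) (𝓡 4) ∞ (fun z => e.symm (φ.symm (M.n z))) z := by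
      intro z h2 h3
      exact (symm_smooth he (hφO (φ.map_target h3)).1).comp z
        (ContDiffAt.comp (g := φ.symm) z (hφs _ h3) (M.n_smooth z h2)).contMDiffAt
    have hz0 : φ (e s) = M.n (M.m (0, ζ)) := by rw [hφy s hs0, hs]
    have h4 : M.n (M.m (0, ζ)) ∈ φ.target := by rw [← hz0]; exact φ.map_source hφ0
    have h5 : e.symm (φ.symm (M.n (M.m (0, ζ)))) = s := by
      rw [← hz0, φ.left_inv hφ0, e.left_inv hs0]
    have h6 : ∀ᶠ z in 𝓝 (M.m (0, ζ)), z ∈ M.D ∧ M.n z ∈ φ.target ∧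
        e.symm (φ.symm (M.n z)) ∈ U1 := by
      refine Filter.Eventually.and (M.D_open.mem_nhds (M.m_mem _)) (Filter.Eventually.and
        ((M.n_smooth _ (M.m_mem _)).continuousAt.preimage_mem_nhds (φ.open_target.mem_nhds h4)) ?_)
      exact (hsm _ (M.m_mem _) h4).continuousAt.preimage_mem_nhds
        (hU1.mem_nhds (by rw [h5]; exact hsU))
    obtain ⟨O, h7, h8, h9⟩ := mem_nhds_iff.1 h6
    refine ⟨O, h8, h9, fun z => e.symm (φ.symm (M.n z)), fun z hz => ?_⟩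
    obtain ⟨a1, a2, a3⟩ := h7 hz
    refine ⟨hsm z a1 a2, a3, ?_⟩
    have a4 := hφO (φ.map_target a2)
    rw [← M.m_n _ a4.2, ← hφG, φ.right_inv a2, M.m_n _ a1]

/-- tubular neighbourhoods -/
structure Tub (S : Sph J) (w0 : Form X 2) (U0 : Set X) where
  Ψ : X → V6
  Φ : V6 → X
  U : Set X
  δ : ℝ
  δ_pos : 0 < δ
  δ_le : δ ≤ 1 / 2
  U_open : IsOpen U
  U_sub : U ⊆ U0
  S_sub : S.set ⊆ U
  Ψ_smooth : ContMDiffOn (𝓡 4) 𝓘(ℝ, V6) ∞ Ψ U
  Φ_smooth : ContMDiffOn 𝓘(ℝ, V6) (𝓡 4) ∞ Φ (TT δ)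
  Ψ_mem : ∀ y ∈ U, Ψ y ∈ TT δ ∧ dot (Ψ y).1 (Ψ y).1 = 1
  ΦΨ : ∀ y ∈ U, Φ (Ψ y) = y
  Φ_mem : ∀ z ∈ TT δ, Φ z ∈ U ∧ Ψ (Φ z) = rho z
  Ψu : ∀ ζ, Ψ (S.u ζ) = M1.m (0, ζ) ∧ Cond J w0 M1 S.u ζ (dF Ψ (S.u ζ))
  Ψv : ∀ ζ, Ψ (S.v ζ) = M2.m (0, ζ) ∧ Cond J w0 M2 S.v ζ (dF Ψ (S.v ζ))

theorem rho_rho {z : V6} (h : 0 < dot z.1 z.1) : rho (rho z) = rho z := by
  rcases M_cover h with h1 | h1
  · rw [← M1.m_n _ h1, M1.rho_m]
  · rw [← M2.m_n _ h1, M2.rho_m]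

theorem exists_tub [CompactSpace X]
    (hJ : ∀ e ∈ atlas HS.E4 X, ContDiffOn ℝ ∞ (endRep e J) e.target)
    {w0 : Form X 2} (hw : Smooth w0) (S : Sph J)
    (hu : ∀ ζ, LA (Jat J (S.u ζ)) (bx w0 (S.u ζ)) (dG S.u ζ))
    (hv : ∀ ζ, LA (Jat J (S.v ζ)) (bx w0 (S.v ζ)) (dG S.v ζ)) {U0 : Set X} (hU0 : IsOpen U0)
    (hSU : S.set ⊆ U0) : Nonempty (Tub S w0 U0) := by
  classical
  obtain ⟨F, hF, hFu, hFv⟩ := exists_F hJ hw S hu hv
  haveI : Nonempty X := ⟨S.u 0⟩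
  set Ψ : X → V6 := fun y => rho (F y) with hΨ
  have hsm : ∀ y, 0 < dot (F y).1 (F y).1 → ContMDiffAt (𝓡 4) 𝓘(ℝ, V6) ∞ Ψ y := fun y hy =>
    (cd_rho hy).contMDiffAt.comp y (hF y)
  have hc : ∀ (M : MC) (u : ℂ → X) ζ, F (u ζ) = M.m (0, ζ) ∧ Cond J w0 M u ζ (dF F (u ζ)) →
      Ψ (u ζ) = M.m (0, ζ) ∧ Cond J w0 M u ζ (dF Ψ (u ζ)) := by
    rintro M u ζ ⟨h1, K, h2, h3⟩
    refine ⟨by simp only [hΨ, h1, M.rho_m], K, ?_, h3⟩
    rw [dF_comp ((hF _).mdifferentiableAt (by simp))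
      ((cd_rho (by rw [h1, M.dotm]; exact one_pos)).differentiableAt (by simp)), h1, h2]
    refine ContinuousLinearMap.ext fun a => ?_
    simp only [ContinuousLinearMap.comp_apply, M.drho_dm]
  have hloc : ∀ s ∈ S.set, ∃ (M : MC) (ζ : ℂ) (K : HS.E4 →L[ℝ] C2), F s = M.m (0, ζ) ∧
      Function.Bijective K ∧ dF F s = (fderiv ℝ M.m (0, ζ)).comp K := by
    intro s hs
    rcases (mem_set S).1 hs with ⟨ζ, rfl⟩ | ⟨ζ, rfl⟩
    · obtain ⟨h1, K, h2, h3⟩ := hFu ζ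
      exact ⟨M1, ζ, K, h1, (hu ζ).K_bij M1.sg_sq h3, h2⟩
    · obtain ⟨h1, K, h2, h3⟩ := hFv ζ
      exact ⟨M2, ζ, K, h1, (hv ζ).K_bij M2.sg_sq h3, h2⟩
  have hpos : ∀ s ∈ S.set, 0 < dot (F s).1 (F s).1 := by
    intro s hs
    obtain ⟨M, ζ, K, h1, -⟩ := hloc s hs
    rw [h1, M.dotm]; exact one_pos
  have hinj : InjOn Ψ S.set := by
    have huv : ∀ ζ ζ', Ψ (S.u ζ) = Ψ (S.v ζ') → S.u ζ = S.v ζ' := by
      intro ζ ζ' h
      rw [(hc _ _ _ (hFu ζ)).1, (hc _ _ _ (hFv ζ')).1] at h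
      have h1 := M_sep h
      have h2 := congrArg Prod.snd (M2.inj ((M_glue h1).trans h))
      have h3 : ζ⁻¹ = ζ' := h2
      rw [← h3, S.glue _ (inv_ne_zero h1), inv_inv]
    intro y hy y' hy' h
    rcases (mem_set S).1 hy with ⟨ζ, rfl⟩ | ⟨ζ, rfl⟩ <;>
      rcases (mem_set S).1 hy' with ⟨ζ', rfl⟩ | ⟨ζ', rfl⟩
    · rw [(hc _ _ _ (hFu ζ)).1, (hc _ _ _ (hFu ζ')).1] at h
      exact congrArg S.u (congrArg Prod.snd (M1.inj h))
    · exact huv _ _ h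
    · exact (huv _ _ h.symm).symm
    · rw [(hc _ _ _ (hFv ζ)).1, (hc _ _ _ (hFv ζ')).1] at h
      exact congrArg S.v (congrArg Prod.snd (M2.inj h))
  obtain ⟨U2, hU2, hSU2, hinj2⟩ := hinj.exists_isOpen_superset (set_compact S)
    (fun s hs => (hsm s (hpos s hs)).continuousAt) (fun s hs => by
      obtain ⟨M, ζ, K, h1, h2, h3⟩ := hloc s hs
      exact (loc_inv hF M h1 h2 h3).1)
  set U1 := U2 ∩ U0 ∩ {y | 0 < dot (F y).1 (F y).1} with hU1d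
  have hU1 : IsOpen U1 :=
    (hU2.inter hU0).inter (isOpen_lt continuous_const (cont_dot1.comp hF.continuous))
  have hSU1 : S.set ⊆ U1 := fun s hs => ⟨⟨hSU2 hs, hSU hs⟩, hpos s hs⟩
  have hinj1 : InjOn Ψ U1 := hinj2.mono fun y hy => hy.1.1
  set Φ : V6 → X := fun z => Function.invFunOn Ψ U1 (rho z) with hΦ
  set P : Set V6 := {z | ContMDiffAt 𝓘(ℝ, V6) (𝓡 4) ∞ Φ z ∧ Φ z ∈ U1 ∧ Ψ (Φ z) = rho z} with hP
  have hPn : ∀ x : R3, dot x x = 1 → ((x, 0) : V6) ∈ interior P := by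
    intro x hx
    have h1 : ∃ s ∈ S.set, F s = (x, 0) := by
      rcases pr12.zero_pt hx with ⟨ζ, h⟩ | ⟨ζ, h⟩
      · exact ⟨_, (mem_set S).2 (Or.inl ⟨ζ, rfl⟩), (hFu ζ).1.trans h⟩
      · exact ⟨_, (mem_set S).2 (Or.inr ⟨ζ, rfl⟩), (hFv ζ).1.trans h⟩
    obtain ⟨s, hs, h2⟩ := h1
    obtain ⟨M, ζ, K, h3, h4, h5⟩ := hloc s hs
    obtain ⟨O, hO, h6, Φa, h7⟩ := (loc_inv hF M h3 h4 h5).2 U1 hU1 (hSU1 hs)
    have h8 : ∀ z ∈ O, Φ z = Φa z := by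
      intro z hz
      simp only [hΦ]
      rw [← (h7 z hz).2.2]
      exact hinj1.leftInvOn_invFunOn (h7 z hz).2.1
    rw [← h2, h3]
    refine interior_maximal (fun z hz => ?_) hO h6
    refine ⟨(h7 z hz).1.congr_of_eventuallyEq ?_, ?_, ?_⟩
    · filter_upwards [hO.mem_nhds hz] with z' hz' using h8 z' hz'
    · rw [h8 z hz]; exact (h7 z hz).2.1
    · rw [h8 z hz]; exact (h7 z hz).2.2
  have hKb : IsCompact {z : V6 | dot z.1 z.1 ≤ 2 ∧ ff z ≤ 1} := compact_box 2 1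
    ((isClosed_le cont_dot1 continuous_const).inter
      (isClosed_le cd_ff.continuous continuous_const)) fun z hz => hz
  obtain ⟨a, ha, hlow⟩ := (hKb.diff (isOpen_interior (s := P))).exists_forall_le'
    (f := fun z => |dot z.1 z.1 - 1| + ff z) (a := 0)
    ((cont_dot1.sub continuous_const).abs.add cd_ff.continuous).continuousOn (fun z hz => by
      by_contra hn
      have h1 := abs_nonneg (dot z.1 z.1 - 1)
      have h2 := ff_nonneg z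
      have h3 : dot z.1 z.1 = 1 := by
        have : |dot z.1 z.1 - 1| = 0 := by linarith
        linarith [abs_eq_zero.1 this]
      have h4 : z.2 = 0 := eq_zero_of_dot (show ff z = 0 by linarith)
      exact hz.2 (by rw [show z = (z.1, 0) from Prod.ext rfl h4]; exact hPn _ h3))
  set δ := min (a / 2) (1 / 2) with hδ
  have hδ0 : 0 < δ := lt_min (by linarith) (by norm_num)
  have hTP : ∀ z ∈ TT δ, z ∈ P := by
    intro z hz
    by_contra hn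
    have h1 : δ ≤ a / 2 := min_le_left _ _
    have h2 : δ ≤ 1 / 2 := min_le_right _ _
    have h3 := hlow z ⟨⟨by linarith [(abs_lt.1 hz.1).2], by linarith [hz.2]⟩,
      fun h => hn (interior_subset h)⟩
    linarith [hz.1, hz.2]
  have hTpos : ∀ z ∈ TT δ, 0 < dot z.1 z.1 := by
    intro z hz
    have h2 : δ ≤ 1 / 2 := min_le_right _ _
    linarith [(abs_lt.1 hz.1).1]
  have hΨc : ContinuousOn Ψ U1 := fun y hy => (hsm y hy.2).continuousAt.continuousWithinAt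
  refine ⟨⟨Ψ, Φ, U1 ∩ Ψ ⁻¹' TT δ, δ, hδ0, min_le_right _ _,
    hΨc.isOpen_inter_preimage hU1 (TT_open δ), fun y hy => hy.1.1.2, fun s hs => ⟨hSU1 hs, ?_⟩,
    fun y hy => (hsm y hy.1.2).contMDiffWithinAt, fun z hz => (hTP z hz).1.contMDiffWithinAt,
    fun y hy => ⟨hy.2, dot_rho hy.1.2⟩, fun y hy => ?_, fun z hz => ⟨⟨(hTP z hz).2.1, ?_⟩,
      (hTP z hz).2.2⟩, fun ζ => hc _ _ _ (hFu ζ), fun ζ => hc _ _ _ (hFv ζ)⟩⟩
  · obtain ⟨M, ζ, K, h1, -⟩ := hloc s hs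
    show rho (F s) ∈ TT δ
    rw [h1, M.rho_m]
    exact ⟨by rw [M.dotm]; simpa using hδ0, by rw [M.ffm]; simpa using hδ0⟩
  · simp only [hΦ, hΨ]
    rw [rho_rho hy.1.2]
    exact hinj1.leftInvOn_invFunOn hy.1
  · rw [mem_preimage, (hTP z hz).2.2]
    exact ⟨by rw [dot_rho (hTpos z hz)]; simpa using hδ0, (ff_rho (hTpos z hz)).trans_lt hz.2⟩

end Vale.Agent.P247S
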