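import Vale.Agent.P247S.B5
import Vale.Agent.P247S.A1
import Vale.Agent.P247S.A3

/-!
# P247, block S: primitives near the sphere and the move
-/

set_option linter.all false

open scoped ContDiff Topology Manifold
open Set Filter Complex

noncomputable section

namespace Vale.Agent.P247S
open Vale.Agent.P247X (om0 Nr EndF Sph)
open Vale.Agent.P247.SCY Vale.Agent.P247.SCY.HS
open Vale.Agent.P204.Mfd (dsym dch mdiff_symm mdiff_chart Jat endRep)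

variable {X : Type} [TopologicalSpace X] [ChartedSpace HS.E4 X] {J : EndF X}
  [IsManifold (𝓡 4) ∞ X] [T2Space X]

def PP : V6 →L[ℝ] V6 := (ContinuousLinearMap.fst ℝ R3 R3).prod 0
def NN : V6 →L[ℝ] V6 := (0 : V6 →L[ℝ] R3).prod (ContinuousLinearMap.snd ℝ R3 R3)

theorem PP_apply (z : V6) : PP z = (z.1, 0) := rfl
theorem NN_apply (z : V6) : NN z = (0, z.2) := rfl

theorem dG_comp {V W : Type} [NormedAddCommGroup V] [NormedSpace ℝ V] [NormedAddCommGroup W]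
    [NormedSpace ℝ W] {Φ : W → X} {m : V → W} {z : V}
    (hΦ : MDifferentiableAt 𝓘(ℝ, W) (𝓡 4) Φ (m z)) (hm : DifferentiableAt ℝ m z) :
    dG (fun z => Φ (m z)) z = (dG Φ (m z)).comp (fderiv ℝ m z) := by
  have h1 := mfderiv_comp (I := 𝓘(ℝ, V)) (I' := 𝓘(ℝ, W)) (I'' := 𝓡 4) z hΦ hm.mdifferentiableAt
  rw [mfderiv_eq_fderiv] at h1
  exact h1

theorem dG_congr {V : Type} [NormedAddCommGroup V] [NormedSpace ℝ V] {Φ Φ' : V → X} {z : V}
    (h : Φ =ᶠ[𝓝 z] Φ') : dG Φ z = dG Φ' z := h.mfderiv_eq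

namespace Tub
variable {S : Sph J} {w0 : Form X 2} {U0 : Set X} (T : Tub S w0 U0)

theorem TT_pos {z : V6} (hz : z ∈ TT T.δ) : 0 < dot z.1 z.1 := by
  linarith [(abs_lt.1 hz.1).1, T.δ_le]

theorem Ψ_at {y : X} (hy : y ∈ T.U) : ContMDiffAt (𝓡 4) 𝓘(ℝ, V6) ∞ T.Ψ y :=
  (T.Ψ_smooth y hy).contMDiffAt (T.U_open.mem_nhds hy)

theorem Φ_at {z : V6} (hz : z ∈ TT T.δ) : ContMDiffAt 𝓘(ℝ, V6) (𝓡 4) ∞ T.Φ z :=
  (T.Φ_smooth z hz).contMDiffAt ((TT_open _).mem_nhds hz)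

theorem inj {y y' : X} (hy : y ∈ T.U) (hy' : y' ∈ T.U) (h : T.Ψ y = T.Ψ y') : y = y' := by
  rw [← T.ΦΨ y hy, h, T.ΦΨ y' hy']

theorem compact {ε : ℝ} (hε : ε < T.δ) : IsCompact {y ∈ T.U | ff (T.Ψ y) ≤ ε} := by
  have hZ : IsCompact {z : V6 | dot z.1 z.1 = 1 ∧ ff z ≤ ε} := compact_box 1 ε
    ((isClosed_eq cont_dot1 continuous_const).inter
      (isClosed_le cd_ff.continuous continuous_const)) fun z hz => ⟨hz.1.le, hz.2⟩
  have hsub : {z : V6 | dot z.1 z.1 = 1 ∧ ff z ≤ ε} ⊆ TT T.δ := fun z hz =>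
    ⟨by rw [hz.1]; simpa using T.δ_pos, hz.2.trans_lt hε⟩
  have : {y ∈ T.U | ff (T.Ψ y) ≤ ε} = T.Φ '' {z : V6 | dot z.1 z.1 = 1 ∧ ff z ≤ ε} := by
    ext y
    constructor
    · intro hy
      exact ⟨T.Ψ y, ⟨(T.Ψ_mem y hy.1).2, hy.2⟩, T.ΦΨ y hy.1⟩
    · rintro ⟨z, hz, rfl⟩
      refine ⟨(T.Φ_mem z (hsub hz)).1, ?_⟩
      rw [(T.Φ_mem z (hsub hz)).2]
      exact (ff_rho (T.TT_pos (hsub hz))).trans hz.2
  rw [this]
  exact hZ.image_of_continuousOn (T.Φ_smooth.continuousOn.mono hsub)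

theorem u_mem (ζ : ℂ) : S.u ζ ∈ T.U := T.S_sub ((mem_set S).2 (Or.inl ⟨ζ, rfl⟩))
theorem v_mem (ζ : ℂ) : S.v ζ ∈ T.U := T.S_sub ((mem_set S).2 (Or.inr ⟨ζ, rfl⟩))

theorem zero_set {y : X} (hy : y ∈ T.U) (h : ff (T.Ψ y) = 0) : y ∈ S.set := by
  have h1 : T.Ψ y = ((T.Ψ y).1, 0) := Prod.ext rfl (eq_zero_of_dot h)
  rcases pr12.zero_pt (T.Ψ_mem y hy).2 with ⟨ζ, h2⟩ | ⟨ζ, h2⟩
  · exact (mem_set S).2 (Or.inl ⟨ζ, T.inj (T.u_mem ζ) hy (by rw [(T.Ψu ζ).1, h2, ← h1])⟩)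
  · exact (mem_set S).2 (Or.inr ⟨ζ, T.inj (T.v_mem ζ) hy (by rw [(T.Ψv ζ).1, h2, ← h1])⟩)

theorem dΦ_dΨ {y : X} (hy : y ∈ T.U) (a : HS.E4) : dG T.Φ (T.Ψ y) (dF T.Ψ y a) = a := by
  have h1 := mfderiv_comp (I := 𝓡 4) (I' := 𝓘(ℝ, V6)) (I'' := 𝓡 4) y
    ((T.Φ_at (T.Ψ_mem y hy).1).mdifferentiableAt (by simp)) ((T.Ψ_at hy).mdifferentiableAt (by simp))
  have h2 : T.Φ ∘ T.Ψ =ᶠ[𝓝 y] id := by
    filter_upwards [T.U_open.mem_nhds hy] with z hz using T.ΦΨ z hz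
  rw [h2.mfderiv_eq, mfderiv_id] at h1
  exact (DFunLike.congr_fun h1 a).symm

theorem base_zero {α : Form X 2} {M : MC} {u : ℂ → X} (hu : ContMDiff 𝓘(ℝ, ℂ) (𝓡 4) ∞ u)
    (hU : ∀ ζ, u ζ ∈ T.U) (hΨ : ∀ ζ, T.Ψ (u ζ) = M.m (0, ζ))
    (h0 : ∀ ζ a b, bx α (u ζ) ![dG u ζ a, dG u ζ b] = 0) {x : R3} (hx : ((x, 0) : V6) ∈ TT T.δ)
    (hD : ((x, 0) : V6) ∈ M.D) : (pv2 T.Φ α (x, 0)).compContinuousLinearMap PP = 0 := by
  have h1 : (fun z => T.Φ (PP z)) =ᶠ[𝓝 (x, 0)] fun z => u (M.n (PP z)).2 := by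
    have h2 : ∀ᶠ z in 𝓝 ((x, 0) : V6), PP z ∈ TT T.δ ∩ M.D :=
      PP.continuous.continuousAt.preimage_mem_nhds
        (((TT_open _).inter M.D_open).mem_nhds ⟨hx, hD⟩)
    filter_upwards [h2] with z hz
    refine T.inj (T.Φ_mem _ hz.1).1 (hU _) ?_
    rw [(T.Φ_mem _ hz.1).2, hΨ, ← M.m_n _ hz.2, ← M.n_zero z.1]
    rfl
  have h3 : DifferentiableAt ℝ (fun z => (M.n (PP z)).2) (x, 0) :=
    (DifferentiableAt.comp (g := M.n) (f := PP) (x, 0)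
      ((M.n_smooth _ hD).differentiableAt (by simp)) PP.differentiableAt).snd
  have h4 := dG_congr h1
  rw [dG_comp (Φ := T.Φ) (m := PP) ((T.Φ_at hx).mdifferentiableAt (by simp)) PP.differentiableAt,
    dG_comp (Φ := u) ((hu _).mdifferentiableAt (by simp)) h3, PP.fderiv] at h4
  have h5 : T.Φ (x, 0) = u (M.n (PP (x, 0))).2 := h1.self_of_nhds
  apply alt2_ext
  intro a b
  have h6 : ∀ a, dG T.Φ (x, 0) (PP a) = dG u (M.n (PP (x, 0))).2
      (fderiv ℝ (fun z => (M.n (PP z)).2) (x, 0) a) := fun a => DFunLike.congr_fun h4 a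
  rw [comp2_apply, pv2, comp2_apply, h6, h6, h5, h0]
  rfl

theorem prim {α : Form X 2} (hs : Smooth α) (hc : Closed α)
    (hu : ∀ ζ a b, bx α (S.u ζ) ![dG S.u ζ a, dG S.u ζ b] = 0)
    (hv : ∀ ζ a b, bx α (S.v ζ) ![dG S.v ζ a, dG S.v ζ b] = 0) :
    ∃ γ : V6 → Cov V6, ContDiff ℝ ∞ γ ∧ (∀ x, γ (x, 0) = 0) ∧
      ∀ y ∈ T.U, ff (T.Ψ y) < T.δ / 2 → bx (pb2 T.Ψ (dd γ)) y = bx α y := by
  have hδ := T.δ_pos
  have hcl : ∀ r, IsClosed {z : V6 | |dot z.1 z.1 - 1| ≤ r ∧ ff z ≤ r} := fun r =>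
    (isClosed_le (cont_dot1.sub continuous_const).abs continuous_const).inter
      (isClosed_le cd_ff.continuous continuous_const)
  obtain ⟨κ, hκ1, hκ0, -⟩ := exists_contMDiffMap_one_nhds_of_subset_interior (n := ⊤) 𝓘(ℝ, V6)
    (hcl (T.δ / 2)) (t := {z : V6 | |dot z.1 z.1 - 1| ≤ 3 * T.δ / 4 ∧ ff z ≤ 3 * T.δ / 4})
    (fun z hz => interior_maximal (t := TT (3 * T.δ / 4))
      (fun z (hz : z ∈ TT (3 * T.δ / 4)) => And.intro hz.1.le hz.2.le) (TT_open _)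
      (And.intro (by linarith [hz.1]) (by linarith [hz.2])))
  have hκ : ContDiff ℝ ∞ κ := κ.contMDiff.contDiff
  set β : V6 → Al2 V6 := fun z => κ z • pv2 T.Φ α z with hβ
  have hsm := fun z hz => pv2_smooth hs hc (TT_open T.δ) T.Φ_smooth (z := z) hz
  have hβs : ContDiff ℝ ∞ β := by
    rw [contDiff_iff_contDiffAt]
    intro z
    by_cases hz : z ∈ TT T.δ
    · exact hκ.contDiffAt.smul (hsm z hz).1
    · refine (contDiffAt_const (c := 0)).congr_of_eventuallyEq ?_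
      filter_upwards [(hcl (3 * T.δ / 4)).isOpen_compl.mem_nhds
        (fun h => hz ⟨by linarith [h.1], by linarith [h.2]⟩)] with z' hz'
      simp only [hβ, hκ0 z' hz', zero_smul]
  have hsub : TT (T.δ / 2) ⊆ TT T.δ := fun z hz => ⟨by linarith [hz.1], by linarith [hz.2]⟩
  have hβe : ∀ z ∈ TT (T.δ / 2), β z = pv2 T.Φ α z := by
    intro z hz
    have := hκ1.self_of_nhdsSet z (And.intro hz.1.le hz.2.le)
    simp only [hβ, this, one_smul]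
  obtain ⟨γ, h1, h2, h3⟩ := rel_poincare PP NN (fun z => by simp [PP_apply, NN_apply]) hβs
    (O := TT (T.δ / 2)) (fun z hz t ht => by
      have e1 : PP z + t • NN z = (z.1, t • z.2) := by simp [PP_apply, NN_apply]
      rw [e1]
      refine ⟨hz.1, lt_of_le_of_lt ?_ hz.2⟩
      have e2 : ff (z.1, t • z.2) = t * t * ff z := by
        simp only [ff, dot, Pi.smul_apply, smul_eq_mul]; ring
      rw [e2]
      exact mul_le_of_le_one_left (ff_nonneg z) (mul_le_one₀ ht.2 ht.1 ht.2))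
    (fun z hz => by
      have : β =ᶠ[𝓝 z] pv2 T.Φ α := by
        filter_upwards [(TT_open _).mem_nhds hz] with z' hz' using hβe z' hz'
      rw [this.extDeriv_eq, (hsm z (hsub hz)).2])
  refine ⟨γ, h1, fun x => h2 _ rfl, fun y hy hf => ?_⟩
  have h4 : T.Ψ y ∈ TT (T.δ / 2) := ⟨by rw [(T.Ψ_mem y hy).2]; simpa using hδ, hf⟩
  have h5 : PP (T.Ψ y) ∈ TT (T.δ / 2) := ⟨h4.1, by
    show dot 0 0 < _
    simpa [dot] using hδ⟩
  have h6 : (β (PP (T.Ψ y))).compContinuousLinearMap PP = 0 := by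
    rw [hβe _ h5]
    rcases M_cover (T.TT_pos (hsub h5)) with h | h
    · exact T.base_zero S.u_smooth T.u_mem (fun ζ => (T.Ψu ζ).1) hu (hsub h5) h
    · exact T.base_zero S.v_smooth T.v_mem (fun ζ => (T.Ψv ζ).1) hv (hsub h5) h
  rw [bx_pb2, h3 _ h4, h6, sub_zero, hβe _ h4, pv2, comp_comp, T.ΦΨ y hy]
  apply alt2_ext
  intro a b
  rw [comp2_apply, ContinuousLinearMap.comp_apply, ContinuousLinearMap.comp_apply, T.dΦ_dΨ hy,
    T.dΦ_dΨ hy]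

theorem move {μ : Form X 4} (hμ : Volume μ) {w : Fin 3 → Form X 2} (hw : Hypersymplectic μ w)
    (k : Fin 3) (hu : ∀ ζ a b, bx (w k) (S.u ζ) ![dG S.u ζ a, dG S.u ζ b] = 0)
    (hv : ∀ ζ a b, bx (w k) (S.v ζ) ![dG S.v ζ a, dG S.v ζ b] = 0) {lam : V6 → Cov V6}
    (hl : ContDiff ℝ ∞ lam) (hl0 : ∀ x, lam (x, 0) = 0)
    (hpos : ∀ y ∈ S.set, ∀ t ∈ Icc (0 : ℝ) 1, ∀ c : Fin 3 → ℝ, c ≠ 0 →
      0 < qf μ y (∑ i, c i • bx (w i) y + (c k * t) • (bx (pb2 T.Ψ (dd lam)) y - bx (w k) y))) :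
    ∃ w' : Fin 3 → Form X 2, P247F.MvAt μ k w w' ∧ (Exact fun x => w' k x - w k x) ∧
      (∀ y, y ∉ T.U → w' k y = w k y) ∧
      ∃ ε, 0 < ε ∧ ∀ y ∈ T.U, ff (T.Ψ y) < ε → bx (w' k) y = bx (pb2 T.Ψ (dd lam)) y := by
  have hδ := T.δ_pos
  obtain ⟨γ, h1, h2, h3⟩ := T.prim (hw.smooth k) (hw.closed k) hu hv
  have h4 : ∀ y ∈ T.U, ff (T.Ψ y) < T.δ / 2 → bx (pb2 T.Ψ (dd fun z => lam z - γ z)) y =
      bx (pb2 T.Ψ (dd lam)) y - bx (w k) y := by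
    intro y hy h
    rw [← h3 y hy h, bx_pb2, dd_sub (hl.differentiable (by simp) _) (h1.differentiable (by simp) _)]
    rfl
  obtain ⟨C, hC, hb⟩ := bound_ff (hl.sub h1) (fun x => by rw [hl0, h2, sub_zero]) 2
  obtain ⟨θ, s1, s2, s3, ⟨ε, hε, s4⟩, s5⟩ := gen hμ hw k T.U_open T.Ψ_smooth cd_ff
    (fun y _ => ff_nonneg _) (δ := T.δ / 4) (by linarith) (T.compact (by linarith))
    (γ := fun z => lam z - γ z) (fun y _ => (hl.sub h1).contDiffAt) hC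
    (fun y hy h => hb _ (by
      rw [Prod.norm_def]
      refine max_le ((norm_le_of_dot (T.Ψ_mem y hy).2.le).trans (by norm_num))
        ((norm_le_of_dot h).trans (by linarith [T.δ_le]))))
    (fun y hy h => by
      rw [h4 y hy (by linarith)]
      exact hpos y (T.zero_set hy h))
  set w' : Fin 3 → Form X 2 := Function.update w k fun x => w k x + θ x with hw'
  have e1 : w' k = fun x => w k x + θ x := Function.update_self _ _ _
  have e2 : ∀ j, j ≠ k → w' j = w j := fun j hj => Function.update_of_ne hj _ _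
  have hp : ∀ s ∈ Icc (0 : ℝ) 1, ∀ x, (Qm μ (P247F.lin w w' s) x).PosDef := by
    intro s hs x
    rw [posDef_iff]
    intro c hc
    have e3 : ∀ i, bx (P247F.lin w w' s i) x = bx (w i) x + s • (bx (w' i) x - bx (w i) x) :=
      fun i => rfl
    have e4 : ∑ i, c i • bx (P247F.lin w w' s i) x =
        ∑ i, c i • bx (w i) x + (c k * s) • bx θ x := by
      simp only [e3, smul_add, Finset.sum_add_distrib]
      congr 1
      rw [Finset.sum_eq_single k (fun j _ hj => by rw [e2 j hj, sub_self, smul_zero, smul_zero])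
        (fun h => absurd (Finset.mem_univ _) h), e1, mul_smul]
      congr 2
      exact add_sub_cancel_left (bx (w k) x) (bx θ x)
    rw [e4]; exact s5 s hs x c hc
  have hw2 : Hypersymplectic μ w' := by
    refine ⟨fun i => ?_, fun i => ?_, fun x => ?_⟩
    · by_cases hi : i = k
      · rw [hi, e1]; exact smooth_add (hw.smooth k) s1
      · rw [e2 i hi]; exact hw.smooth i
    · by_cases hi : i = k
      · rw [hi, e1]; exact closed_add (hw.smooth k) s1 (hw.closed k) (exact_closed s2)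
      · rw [e2 i hi]; exact hw.closed i
    · have := hp 1 ⟨zero_le_one, le_rfl⟩ x
      have e5 : P247F.lin w w' 1 = w' := by
        funext i x; simp [P247F.lin]
      rwa [e5] at this
  refine ⟨w', ⟨⟨hw, hw2, hp⟩, e2⟩, ?_, fun y hy => ?_, min ε (T.δ / 2), lt_min hε (by linarith),
    fun y hy h => ?_⟩
  · rw [e1]
    simpa only [add_sub_cancel_left] using s2
  · rw [e1]; simp only [s3 y hy, add_zero]
  · have e6 : bx (w' k) y = bx (w k) y + bx θ y := by rw [e1]; rfl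
    have e7 : bx θ y = bx (pb2 T.Ψ (dd fun z => lam z - γ z)) y :=
      s4 y hy (h.trans_le (min_le_left _ _))
    rw [e6, e7, h4 y hy (h.trans_le (min_le_right _ _))]
    abel

end Tub

end Vale.Agent.P247S
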