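import Vale.Agent.P247S.B6

/-!
# P247, block S: the model charts of the tubular neighbourhood
-/

set_option linter.all false

open scoped ContDiff Topology Manifold
open Set Filter Complex

noncomputable section

namespace Vale.Agent.P247S
open Vale.Agent.P247X (om0 Nr EndF Sph Jw)
open Vale.Agent.P247.SCY Vale.Agent.P247.SCY.HS
open Vale.Agent.P204.Mfd (dsym dch mdiff_symm mdiff_chart Jat endRep)

theorem om0_nd {a a' : C2} (h : ∀ b, om0 a b = om0 a' b) : a = a' := by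
  have h1 := h (0, 1)
  have h2 := h (1, 0)
  simp only [om0, mul_one, mul_zero, sub_zero, zero_sub] at h1 h2
  exact Prod.ext (by linear_combination 2 * h1) (by linear_combination -2 * h2)

theorem scalar_j {j : C2 →L[ℝ] C2} (sq : ∀ a, j (j a) = -a)
    (h : ∀ a b, om0 (j a) b = om0 a (j b)) : (∀ a, j a = I • a) ∨ ∀ a, j a = -(I • a) := by
  have hI : ∀ a, j (I • a) = I • j a := fun a => om0_nd fun b => by
    have h1 := h (I • a) b
    have h2 := h a b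
    simp only [om0, Prod.smul_fst, Prod.smul_snd, smul_eq_mul] at h1 h2 ⊢
    linear_combination h1 - I * h2
  have hc : ∀ (c : ℂ) a, j (c • a) = c • j a := by
    intro c a
    conv_lhs => rw [show c = c.re • (1 : ℂ) + c.im • I by apply Complex.ext <;> simp]
    conv_rhs => rw [show c = c.re • (1 : ℂ) + c.im • I by apply Complex.ext <;> simp]
    simp only [add_smul, smul_assoc, one_smul, map_add, map_smul, hI]
  have h1 := h (1, 0) (1, 0)
  have h2 := h (0, 1) (0, 1)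
  have h3 := h (1, 0) (0, 1)
  simp only [om0, mul_one, mul_zero, sub_zero, zero_sub, one_mul, zero_mul] at h1 h2 h3
  set l := (j (1, 0)).1 with hl
  have e1 : j (1, 0) = l • ((1, 0) : C2) := Prod.ext (by simp [hl]) (by
    simp only [Prod.smul_snd, smul_zero]; linear_combination -h1)
  have e2 : j (0, 1) = l • ((0, 1) : C2) := Prod.ext (by
    simp only [Prod.smul_fst, smul_zero]; linear_combination h2) (by
    simp only [Prod.smul_snd, smul_eq_mul, mul_one]; linear_combination -2 * h3)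
  have e3 : ∀ a, j a = l • a := by
    intro a
    have : a = a.1 • ((1, 0) : C2) + a.2 • ((0, 1) : C2) := by simp
    conv_lhs => rw [this, map_add, hc, hc, e1, e2]
    refine Prod.ext ?_ ?_ <;> simp [mul_comm]
  have e4 : (l - I) * (l + I) = 0 := by
    have := congrArg Prod.fst (sq (1, 0))
    rw [e3, e3] at this
    simp only [Prod.smul_fst, smul_eq_mul, mul_one, Prod.fst_neg] at this
    linear_combination this - I_mul_I
  rcases mul_eq_zero.1 e4 with h4 | h4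
  · left; intro a; rw [e3, sub_eq_zero.1 h4]
  · right; intro a; rw [e3, eq_neg_of_add_eq_zero_left h4, neg_smul]

variable {X : Type} [TopologicalSpace X] [ChartedSpace HS.E4 X]

section hyp
variable {μ : Form X 4} {w : Fin 3 → Form X 2} (hw : Hypersymplectic μ w)
include hw

theorem hdef : DefAt (w 2) (w 0) (w 1) := defAt_of_triPos (tri_of_posDef hw.posDef).rot

theorem h_sq (y : X) (v : HS.E4) : Jat (Jw w) y (Jat (Jw w) y v) = -v := Jf_sq (hdef hw) y v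

theorem h_anti0 (y : X) (u v : HS.E4) :
    bx (w 0) y ![Jat (Jw w) y u, Jat (Jw w) y v] = - bx (w 0) y ![u, v] :=
  Jf_anti_B (hdef hw) y u v

theorem h_anti1 (y : X) (u v : HS.E4) :
    bx (w 1) y ![Jat (Jw w) y u, Jat (Jw w) y v] = - bx (w 1) y ![u, v] :=
  Jf_anti_C (hdef hw) y u v

theorem h_tame (y : X) {v : HS.E4} (hv : v ≠ 0) : 0 < bx (w 2) y ![v, Jat (Jw w) y v] :=
  Jf_tames' (hdef hw) y v hv

theorem h_nd (y : X) (v : HS.E4) (h : ∀ u, bx (w 0) y ![v, u] = 0) : v = 0 := by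
  obtain ⟨s, hs⟩ := hdef hw y
  have h1 : P204.Mfd.toE.symm v = 0 := nondeg (QBB_ne hs.dsc_pos) fun u => by
    rw [ev_cx, ev_cx, P204.Mfd.toE.apply_symm_apply, map_zero]
    show bx (w 0) y ![v, _] = bx (w 0) y ![0, _]
    rw [h, ← bl_apply, map_zero]; rfl
  simpa using h1

theorem h_la {u : ℂ → X} {ζ : ℂ} (h1 : P247X.dm u ζ 1 ≠ 0) (h2 : P247X.JAt (Jw w) u ζ) :
    LA (Jat (Jw w) (u ζ)) (bx (w 0) (u ζ)) (dG u ζ) :=
  ⟨h_sq hw _, h_anti0 hw _, h_nd hw _, h2, h1⟩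

theorem h_indep (y : X) {A : ℝ} (h : bx (w 1) y = A • bx (w 0) y) : False := by
  have h1 := (posDef_iff μ w y).1 (hw.posDef y) ![-A, 1, 0] (fun h0 => by
    have := congrFun h0 1; simp at this)
  rw [Fin.sum_univ_three, h] at h1
  have h2 : qf μ y 0 = 0 := by
    have := qf_smul μ y 0 0
    simpa using this
  have h3 : (![-A, 1, 0] : Fin 3 → ℝ) 0 • bx (w 0) y + (![-A, 1, 0] : Fin 3 → ℝ) 1 • A • bx (w 0) y +
      (![-A, 1, 0] : Fin 3 → ℝ) 2 • bx (w 2) y = 0 := by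
    ext v; simp
  rw [h3, h2] at h1
  exact lt_irrefl _ h1

end hyp

variable [IsManifold (𝓡 4) ∞ X] [T2Space X]

theorem dF_dG {V W : Type} [NormedAddCommGroup V] [NormedSpace ℝ V] [NormedAddCommGroup W]
    [NormedSpace ℝ W] {Ψ : X → W} {p : V → X} {z : V}
    (hΨ : MDifferentiableAt (𝓡 4) 𝓘(ℝ, W) Ψ (p z)) (hp : MDifferentiableAt 𝓘(ℝ, V) (𝓡 4) p z) :
    fderiv ℝ (fun z => Ψ (p z)) z = (dF Ψ (p z)).comp (dG p z) := by
  have h1 := mfderiv_comp (I := 𝓘(ℝ, V)) (I' := 𝓡 4) (I'' := 𝓘(ℝ, W)) z hΨ hp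
  rw [mfderiv_eq_fderiv] at h1
  exact h1

namespace Tub
variable {J : EndF X} {S : Sph J} {w0 : Form X 2} {U0 : Set X} (T : Tub S w0 U0) (M : MC)

/-- the model chart -/
def pM : C2 → X := fun z => T.Φ (M.m z)

/-- its domain -/
def OM : Set C2 := M.m ⁻¹' TT T.δ

theorem OM_open : IsOpen (T.OM M) := (TT_open _).preimage M.m_smooth.continuous

theorem mem_OM {z : C2} (h : ff (M.m z) < T.δ) : z ∈ T.OM M :=
  ⟨by rw [M.dotm]; simpa using T.δ_pos, h⟩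

theorem zero_OM (ζ : ℂ) : ((0, ζ) : C2) ∈ T.OM M := T.mem_OM M (by
  rw [M.ffm]; simpa using T.δ_pos)

variable {T M}

theorem pM_at {z : C2} (hz : z ∈ T.OM M) : ContMDiffAt 𝓘(ℝ, C2) (𝓡 4) ∞ (T.pM M) z :=
  (T.Φ_at hz).comp z M.m_smooth.contMDiff.contMDiffAt

theorem pM_mem {z : C2} (hz : z ∈ T.OM M) : T.pM M z ∈ T.U := (T.Φ_mem _ hz).1

theorem Ψ_pM {z : C2} (hz : z ∈ T.OM M) : T.Ψ (T.pM M z) = M.m z :=
  (T.Φ_mem _ hz).2.trans (M.rho_m z)

theorem dΨ_dp {z : C2} (hz : z ∈ T.OM M) (a : C2) :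
    dF T.Ψ (T.pM M z) (dG (T.pM M) z a) = fderiv ℝ M.m z a := by
  have h1 := dF_dG ((T.Ψ_at (pM_mem hz)).mdifferentiableAt (by simp))
    ((pM_at hz).mdifferentiableAt (by simp))
  have h2 : (fun z => T.Ψ (T.pM M z)) =ᶠ[𝓝 z] M.m := by
    filter_upwards [(T.OM_open M).mem_nhds hz] with z' hz' using Ψ_pM hz'
  rw [h2.fderiv_eq] at h1
  exact (DFunLike.congr_fun h1 a).symm

theorem dp_bij {z : C2} (hz : z ∈ T.OM M) : Function.Bijective (dG (T.pM M) z) :=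
  bij_of_inj _ fun a b h => by
    rw [← M.dn_dm z a, ← M.dn_dm z b, ← dΨ_dp hz, ← dΨ_dp hz, h]

theorem pb_pM {z : C2} (hz : z ∈ T.OM M) (β : V6 → Al2 V6) (a b : C2) :
    bx (pb2 T.Ψ β) (T.pM M z) ![dG (T.pM M) z a, dG (T.pM M) z b] =
      β (M.m z) ![fderiv ℝ M.m z a, fderiv ℝ M.m z b] := by
  rw [bx_pb2, comp2_apply, dΨ_dp hz, dΨ_dp hz, Ψ_pM hz]

theorem cont_pv {α : Form X 2} (hs : Smooth α) (hc : Closed α) (a b : C2) :
    ContinuousOn (fun z => bx α (T.pM M z) ![dG (T.pM M) z a, dG (T.pM M) z b]) (T.OM M) := by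
  intro z hz
  have h1 := (pv2_smooth hs hc (T.OM_open M) (fun z hz => (pM_at hz).contMDiffWithinAt) hz).1
  have h2 := (ContinuousAlternatingMap.apply ℝ C2 ℝ ![a, b]).continuous.continuousAt.comp
    h1.continuousAt
  refine (h2.congr (Eventually.of_forall fun z => ?_)).continuousWithinAt
  exact comp2_apply _ _ _ _

section chart
variable {u : ℂ → X} (hU : ∀ ζ, u ζ ∈ T.U)
  (hΨ : ∀ ζ, T.Ψ (u ζ) = M.m (0, ζ) ∧ Cond J w0 M u ζ (dF T.Ψ (u ζ)))
  (hla : ∀ ζ, LA (Jat J (u ζ)) (bx w0 (u ζ)) (dG u ζ))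
include hU hΨ

theorem pM_zero (ζ : ℂ) : T.pM M (0, ζ) = u ζ := by
  rw [pM, ← (hΨ ζ).1, T.ΦΨ _ (hU ζ)]

include hla

theorem at_u (ζ : ℂ) : ∃ K : HS.E4 →L[ℝ] C2, (∀ a, K (dG (T.pM M) (0, ζ) a) = a) ∧
    (∀ a, dG (T.pM M) (0, ζ) (0, a) = dG u ζ a) ∧
    (∀ a b, bx (pb2 T.Ψ (dd lam1)) (u ζ) ![a, b] = M.sg * (om0 (K a) (K b)).im) ∧
    bx (pb2 T.Ψ (dd lam0)) (u ζ) = bx w0 (u ζ) ∧
    (∀ a b, bx w0 (u ζ) ![a, b] = M.sg * (om0 (K a) (K b)).re) ∧
    ∀ B : Al2 HS.E4, (∀ a b, B ![Jat J (u ζ) a, Jat J (u ζ) b] = - B ![a, b]) →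
      ∃ α β : ℝ, ∀ a b, B ![a, b] = α * (om0 (K a) (K b)).re + β * (om0 (K a) (K b)).im := by
  obtain ⟨h1, K, h2, h3⟩ := hΨ ζ
  have hb := (hla ζ).K_bij M.sg_sq h3
  have h4 : ∀ a, K (dG (T.pM M) (0, ζ) a) = a := by
    intro a
    have h5 := dΨ_dp (T.zero_OM M ζ) a
    rw [pM_zero hU hΨ, h2] at h5
    have h6 := congrArg (fderiv ℝ M.n (M.m (0, ζ))) h5
    rwa [ContinuousLinearMap.comp_apply, M.dn_dm, M.dn_dm] at h6
  obtain ⟨n1, hn1⟩ := hb.2 (1, 0)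
  have hf := fun B hB => anti_form (hla ζ).sq hb.1 ((hla ζ).KJ h3) hn1 ((hla ζ).Kd h3 1) (B := B) hB
  have h7 : ∀ a b, bx w0 (u ζ) ![a, b] = M.sg * (om0 (K a) (K b)).re := by
    intro a b
    have e1 := h3.hB n1 1
    have e2 := h3.hB n1 I
    rw [hn1] at e1 e2
    rw [(hla ζ).hol] at e2
    simp only [mul_one, one_re, one_mul, I_re, zero_div] at e1 e2
    have hs := M.sg_sq
    rw [hf _ (hla ζ).anti]
    linear_combination (-2 * M.sg * (om0 (K a) (K b)).re) * e1 -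
      (2 * M.sg * (om0 (K a) (K b)).im) * e2 -
      (2 * bx w0 (u ζ) ![n1, dG u ζ 1] * (om0 (K a) (K b)).re +
        2 * bx w0 (u ζ) ![n1, Jat J (u ζ) (dG u ζ 1)] * (om0 (K a) (K b)).im) * hs
  refine ⟨K, h4, fun a => hb.1 (by rw [h4, (hla ζ).Kd h3]), fun a b => ?_, ?_, h7,
    fun B hB => ⟨_, _, hf B hB⟩⟩
  · rw [bx_pb2, comp2_apply, h1, h2]
    exact M.dd1 _ _ _
  · apply alt2_ext
    intro a b
    rw [bx_pb2, comp2_apply, h1, h2, h7]
    exact M.dd0 _ _ _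

end chart

end Tub

/-- the sign of the second form with respect to the model -/
def Sg (w : Fin 3 → Form X 2) (L : Form X 2) (s : ℝ) (y : X) : Prop :=
  ∃ A B : ℝ, 0 < s * B ∧ bx (w 1) y = A • bx (w 0) y + B • bx L y

theorem sg_unique {μ : Form X 4} {w : Fin 3 → Form X 2} (hw : Hypersymplectic μ w) {L : Form X 2}
    {y : X} (h : Sg w L 1 y) (h' : Sg w L (-1) y) : False := by
  obtain ⟨A, B, h1, h2⟩ := h
  obtain ⟨A', B', h1', h2'⟩ := h'
  have hB : B - B' ≠ 0 := by intro h0; linarith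
  apply h_indep hw y (A := (B * A' - B' * A) / (B - B'))
  ext v
  have e1 := DFunLike.congr_fun h2 v
  have e2 := DFunLike.congr_fun h2' v
  simp only [ContinuousAlternatingMap.add_apply, ContinuousAlternatingMap.smul_apply,
    smul_eq_mul] at e1 e2 ⊢
  field_simp
  linear_combination B * e2 - B' * e1

theorem sign_chart {μ : Form X 4} {w : Fin 3 → Form X 2} (hw : Hypersymplectic μ w)
    {S : Sph (Jw w)} {U0 : Set X} {T : Tub S (w 0) U0} {M : MC} {u : ℂ → X}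
    (hU : ∀ ζ, u ζ ∈ T.U)
    (hΨ : ∀ ζ, T.Ψ (u ζ) = M.m (0, ζ) ∧ Cond (Jw w) (w 0) M u ζ (dF T.Ψ (u ζ)))
    (hla : ∀ ζ, LA (Jat (Jw w) (u ζ)) (bx (w 0) (u ζ)) (dG u ζ)) :
    (∀ ζ, Sg w (pb2 T.Ψ (dd lam1)) 1 (u ζ)) ∨ ∀ ζ, Sg w (pb2 T.Ψ (dd lam1)) (-1) (u ζ) := by
  set b : ℂ → ℝ := fun ζ => M.sg * bx (w 1) (T.pM M (0, ζ))
    ![dG (T.pM M) (0, ζ) (1, 0), dG (T.pM M) (0, ζ) (0, I)] with hb
  have hc : Continuous b := continuous_const.mul
    ((Tub.cont_pv (hw.smooth 1) (hw.closed 1) (1, 0) (0, I)).comp_continuous (by fun_prop)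
      (T.zero_OM M))
  have key : ∀ ζ, b ζ ≠ 0 ∧ ∃ A : ℝ, bx (w 1) (u ζ) = A • bx (w 0) (u ζ) +
      (2 * b ζ) • bx (pb2 T.Ψ (dd lam1)) (u ζ) := by
    intro ζ
    obtain ⟨K, h1, -, h3, -, h5, h6⟩ := Tub.at_u hU hΨ hla ζ
    obtain ⟨α, β, h7⟩ := h6 _ (h_anti1 hw _)
    have h8 : b ζ = M.sg * (β / 2) := by
      simp only [hb, Tub.pM_zero hU hΨ, h7, h1, om0]
      simp
      left; ring
    have hs := M.sg_sq
    have h9 : bx (w 1) (u ζ) = (M.sg * α) • bx (w 0) (u ζ) +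
        (2 * b ζ) • bx (pb2 T.Ψ (dd lam1)) (u ζ) := by
      apply alt2_ext
      intro x y
      simp only [ContinuousAlternatingMap.add_apply, ContinuousAlternatingMap.smul_apply,
        smul_eq_mul, h3, h5, h7, h8]
      linear_combination (-(α * (om0 (K x) (K y)).re) - β * (om0 (K x) (K y)).im) * hs
    refine ⟨fun h0 => ?_, _, h9⟩
    rw [h0, mul_zero, zero_smul, add_zero] at h9
    exact h_indep hw _ h9
  by_cases h0 : 0 < b 0
  · left
    intro ζ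
    obtain ⟨h1, A, h2⟩ := key ζ
    refine ⟨A, _, ?_, h2⟩
    by_contra h3
    obtain ⟨z, hz⟩ := intermediate_value_univ ζ 0 hc (show (0 : ℝ) ∈ Icc (b ζ) (b 0) from
      ⟨by linarith, h0.le⟩)
    exact (key z).1 hz
  · right
    intro ζ
    obtain ⟨h1, A, h2⟩ := key ζ
    refine ⟨A, _, ?_, h2⟩
    by_contra h3
    obtain ⟨z, hz⟩ := intermediate_value_univ 0 ζ hc (show (0 : ℝ) ∈ Icc (b 0) (b ζ) from
      ⟨by linarith, by linarith⟩)
    exact (key z).1 hz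

end Vale.Agent.P247S
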