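import Vale.Agent.P247S.B7

/-!
# P247, block S: straightening near one sphere
-/

set_option linter.all false

open scoped ContDiff Topology Manifold
open Set Filter Complex

noncomputable section

namespace Vale.Agent.P247S
open Vale.Agent.P247X (om0 Nr EndF Sph Jw Std Chain Coh)
open Vale.Agent.P247.SCY Vale.Agent.P247.SCY.HS
open Vale.Agent.P204.Mfd (dsym dch mdiff_symm mdiff_chart Jat endRep)

variable {X : Type} [TopologicalSpace X] [ChartedSpace HS.E4 X] [IsManifold (𝓡 4) ∞ X] [T2Space X]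

theorem std_chart {μ : Form X 4} {w w' : Fin 3 → Form X 2} (hw : Hypersymplectic μ w)
    (hw' : Hypersymplectic μ w') (h2 : w' 2 = w 2) {S : Sph (Jw w)} {U0 : Set X}
    {T : Tub S (w 0) U0} {M : MC} {u : ℂ → X} (hU : ∀ ζ, u ζ ∈ T.U)
    (hΨ : ∀ ζ, T.Ψ (u ζ) = M.m (0, ζ) ∧ Cond (Jw w) (w 0) M u ζ (dF T.Ψ (u ζ)))
    (hla : ∀ ζ, LA (Jat (Jw w) (u ζ)) (bx (w 0) (u ζ)) (dG u ζ)) {r s : ℝ} (hr : 0 < r)
    (hs : s * s = 1) (hrδ : r ^ 2 / 16 ≤ T.δ)
    (he : ∀ y ∈ T.U, ff (T.Ψ y) < r ^ 2 / 16 → bx (w' 0) y = bx (pb2 T.Ψ (dd lam0)) y ∧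
      bx (w' 1) y = s • bx (pb2 T.Ψ (dd lam1)) y) :
    (∀ z ∈ Nr r, ∀ a b, bx (w' 0) (T.pM M z) ![dG (T.pM M) z a, dG (T.pM M) z b] =
      M.sg * (om0 a b).re) ∧
    (∀ z ∈ Nr r, ∀ a b, bx (w' 1) (T.pM M z) ![dG (T.pM M) z a, dG (T.pM M) z b] =
      M.sg * (s * (om0 a b).im)) ∧
    ∀ z ∈ Nr r, ∀ a, dG (T.pM M) z (I • a) = Jat (Jw w') (T.pM M z) (dG (T.pM M) z a) := by
  have hO : ∀ z ∈ Nr r, z ∈ T.OM M := fun z hz => T.mem_OM M (((M.ff_lt hr).1 hz).trans_le hrδ)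
  have he' : ∀ z ∈ Nr r, _ := fun z hz => he _ (Tub.pM_mem (hO z hz))
    (by rw [Tub.Ψ_pM (hO z hz)]; exact (M.ff_lt hr).1 hz)
  have p0 : ∀ z ∈ Nr r, ∀ a b, bx (w' 0) (T.pM M z) ![dG (T.pM M) z a, dG (T.pM M) z b] =
      M.sg * (om0 a b).re := by
    intro z hz a b
    rw [(he' z hz).1, Tub.pb_pM (hO z hz), M.dd0]
  have p1 : ∀ z ∈ Nr r, ∀ a b, bx (w' 1) (T.pM M z) ![dG (T.pM M) z a, dG (T.pM M) z b] =
      M.sg * (s * (om0 a b).im) := by
    intro z hz a b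
    rw [(he' z hz).2, ContinuousAlternatingMap.smul_apply, Tub.pb_pM (hO z hz), M.dd1, smul_eq_mul]
    ring
  refine ⟨p0, p1, ?_⟩
  set h : C2 → ℝ := fun z => bx (w' 2) (T.pM M z) ![dG (T.pM M) z (0, 1), dG (T.pM M) z (0, I)]
    with hh
  have key : ∀ z ∈ Nr r, (0 < h z ∧ ∀ a, dG (T.pM M) z (I • a) =
      Jat (Jw w') (T.pM M z) (dG (T.pM M) z a)) ∨ h z < 0 := by
    intro z hz
    have hb := Tub.dp_bij (hO z hz)
    set D := dG (T.pM M) z with hD
    set J' := Jat (Jw w') (T.pM M z) with hJ'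
    set A : C2 ≃L[ℝ] HS.E4 := ContinuousLinearEquiv.ofBijective D
      (LinearMap.ker_eq_bot.2 hb.1) (LinearMap.range_eq_top.2 hb.2) with hA
    set j : C2 →L[ℝ] C2 := (A.symm : HS.E4 →L[ℝ] C2).comp (J'.comp D) with hj
    have hDj : ∀ a, D (j a) = J' (D a) := fun a => A.apply_symm_apply _
    have hM := M.sg_sq
    have hM0 : M.sg ≠ 0 := by intro h0; rw [h0] at hM; norm_num at hM
    have hs0 : s ≠ 0 := by intro h0; rw [h0] at hs; norm_num at hs
    have hsc := scalar_j (j := j) (fun a => hb.1 (by rw [hDj, hDj, h_sq hw', map_neg]))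
      (fun a b => by
        have e0 := anti_J (h_sq hw' _) (h_anti0 hw' (T.pM M z)) (D a) (D b)
        have e1 := anti_J (h_sq hw' _) (h_anti1 hw' (T.pM M z)) (D a) (D b)
        rw [← hJ', ← hDj, ← hDj, p0 z hz, p0 z hz] at e0
        rw [← hJ', ← hDj, ← hDj, p1 z hz, p1 z hz] at e1
        exact Complex.ext (mul_left_cancel₀ hM0 e0)
          (mul_left_cancel₀ hs0 (mul_left_cancel₀ hM0 e1)))
    have ht := h_tame hw' (T.pM M z) (v := D (0, 1)) (fun h0 => by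
      have := hb.1 (h0.trans (map_zero D).symm)
      simp at this)
    have hI : I • ((0, 1) : C2) = (0, I) := by simp
    rw [← hJ', ← hDj] at ht
    rcases hsc with h1 | h1
    · left
      rw [h1, hI] at ht
      exact ⟨ht, fun a => by rw [← hDj, h1]⟩
    · right
      rw [h1, hI, map_neg, ← bl_apply, map_neg, bl_apply] at ht
      simp only [hh]
      linarith
  have hc : ContinuousOn h (Nr r) := (Tub.cont_pv (hw'.smooth 2) (hw'.closed 2) _ _).mono hO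
  have h0 : ∀ ζ, 0 < h (0, ζ) := by
    intro ζ
    obtain ⟨K, -, h3, -⟩ := Tub.at_u hU hΨ hla ζ
    simp only [hh, h3, Tub.pM_zero hU hΨ, h2, (hla ζ).hol]
    exact h_tame hw _ (hla ζ).ne
  intro z hz
  rcases key z hz with h1 | h1
  · exact h1.2
  · exfalso
    have hm : ∀ t ∈ Icc (0 : ℝ) 1, ((t • z.1, z.2) : C2) ∈ Nr r := by
      intro t ht
      have hz' : ‖z.1‖ * (1 + ‖z.2‖ ^ 2) < r := hz
      show ‖t • z.1‖ * (1 + ‖z.2‖ ^ 2) < r
      refine lt_of_le_of_lt ?_ hz'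
      rw [norm_smul, Real.norm_eq_abs, abs_of_nonneg ht.1]
      exact mul_le_mul_of_nonneg_right (mul_le_of_le_one_left (norm_nonneg _) ht.2) (by positivity)
    have hg : ContinuousOn (fun t : ℝ => h (t • z.1, z.2)) (Icc 0 1) :=
      hc.comp (f := fun t : ℝ => ((t • z.1, z.2) : C2)) (by fun_prop) hm
    obtain ⟨t, ht, h3⟩ := intermediate_value_Icc' zero_le_one hg
      (show (0 : ℝ) ∈ Icc (h ((1 : ℝ) • z.1, z.2)) (h ((0 : ℝ) • z.1, z.2)) from
        ⟨by rw [one_smul]; exact h1.le, by rw [zero_smul]; exact (h0 _).le⟩)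
    rcases key _ (hm t ht) with h4 | h4
    · exact h4.1.ne' h3
    · exact h4.ne h3

theorem Tr_mem {r : ℝ} (hr : 0 < r) {z : C2} (hz : z ∈ Nr r) (h : z.2 ≠ 0) : Tr z ∈ Nr r := by
  rw [M2.ff_lt hr, M_glue h]
  exact (M1.ff_lt hr).1 hz

theorem one_sphere [CompactSpace X] {μ : Form X 4} (hμ : Volume μ) {w : Fin 3 → Form X 2}
    (hw : Hypersymplectic μ w) (S : Sph (Jw w)) {U0 : Set X} (hU0 : IsOpen U0)
    (hSU : S.set ⊆ U0) :
    ∃ (w' : Fin 3 → Form X 2) (St : Std w'), Hypersymplectic μ w' ∧ Chain μ w w' ∧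
      (∀ i, Exact fun x => w' i x - w i x) ∧ (∀ y, y ∉ U0 → ∀ i, w' i y = w i y) ∧ St.nb ⊆ U0 ∧
      ∀ z, St.p (0, z) = S.u z ∧ St.q (0, z) = S.v z := by
  have hu : ∀ ζ, LA (Jat (Jw w) (S.u ζ)) (bx (w 0) (S.u ζ)) (dG S.u ζ) := fun ζ =>
    h_la hw (S.u_imm ζ) (S.u_hol ζ)
  have hv : ∀ ζ, LA (Jat (Jw w) (S.v ζ)) (bx (w 0) (S.v ζ)) (dG S.v ζ) := fun ζ =>
    h_la hw (S.v_imm ζ) (S.v_hol ζ)
  obtain ⟨T⟩ := exists_tub (J := Jw w)
    (Jf_almostComplex (hdef hw) (hw.smooth 2) (hw.smooth 0) (hw.smooth 1)).smooth (hw.smooth 0) S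
    hu hv hU0 hSU
  have hL0 : ∀ y ∈ S.set, bx (pb2 T.Ψ (dd lam0)) y = bx (w 0) y := by
    intro y hy
    rcases (mem_set S).1 hy with ⟨ζ, rfl⟩ | ⟨ζ, rfl⟩
    · obtain ⟨K, -, -, -, h, -⟩ := Tub.at_u T.u_mem T.Ψu hu ζ
      exact h
    · obtain ⟨K, -, -, -, h, -⟩ := Tub.at_u T.v_mem T.Ψv hv ζ
      exact h
  obtain ⟨s, hs, hsg⟩ : ∃ s : ℝ, s * s = 1 ∧ ∀ y ∈ S.set, Sg w (pb2 T.Ψ (dd lam1)) s y := by
    have e : S.v 1 = S.u 1 := by rw [S.glue 1 one_ne_zero, inv_one]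
    rcases sign_chart hw T.u_mem T.Ψu hu with h1 | h1 <;>
      rcases sign_chart hw T.v_mem T.Ψv hv with h2 | h2
    · refine ⟨1, by norm_num, fun y hy => ?_⟩
      rcases (mem_set S).1 hy with ⟨ζ, rfl⟩ | ⟨ζ, rfl⟩
      exacts [h1 ζ, h2 ζ]
    · exact (sg_unique hw (h1 1) (e ▸ h2 1)).elim
    · exact (sg_unique hw (e ▸ h2 1) (h1 1)).elim
    · refine ⟨-1, by norm_num, fun y hy => ?_⟩
      rcases (mem_set S).1 hy with ⟨ζ, rfl⟩ | ⟨ζ, rfl⟩
      exacts [h1 ζ, h2 ζ]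
  obtain ⟨w1, m1', x1, o1, ε1, hε1, n1'⟩ := T.move hμ hw 0 (fun ζ => (hu ζ).dd_zero (hu ζ).anti)
    (fun ζ => (hv ζ).dd_zero (hv ζ).anti) cd_lam0 lam0_zero (fun y hy t _ c hc => by
      have e : (c 0 * t) • (bx (pb2 T.Ψ (dd lam0)) y - bx (w 0) y) = 0 := by
        rw [hL0 y hy]; ext v; simp
      rw [e, add_zero]
      exact (posDef_iff μ w y).1 (hw.posDef y) c hc)
  have e11 : w1 1 = w 1 := m1'.2 1 (by decide)
  have e12 : w1 2 = w 2 := m1'.2 2 (by decide)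
  have hff : ∀ y ∈ S.set, ff (T.Ψ y) = 0 := by
    intro y hy
    rcases (mem_set S).1 hy with ⟨ζ, rfl⟩ | ⟨ζ, rfl⟩
    · rw [(T.Ψu ζ).1, M1.ffm]; simp
    · rw [(T.Ψv ζ).1, M2.ffm]; simp
  have eL : ∀ y, bx (pb2 T.Ψ (dd fun z => s • lam1 z)) y = s • bx (pb2 T.Ψ (dd lam1)) y := by
    intro y
    rw [bx_pb2, dd_const_smul (cd_lam1.differentiable (by simp) _)]
    rfl
  obtain ⟨w2, m2', x2, o2, ε2, hε2, n2'⟩ := T.move hμ m1'.1.hv 1
    (fun ζ => by rw [e11]; exact (hu ζ).dd_zero (h_anti1 hw _))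
    (fun ζ => by rw [e11]; exact (hv ζ).dd_zero (h_anti1 hw _))
    (lam := fun z => s • lam1 z) (cd_lam1.const_smul s) (fun x => by rw [lam1_zero, smul_zero])
    (fun y hy t ht c hc => by
      obtain ⟨A, B, h1, h2⟩ := hsg y hy
      have hB : B ≠ 0 := by intro h0; rw [h0, mul_zero] at h1; exact lt_irrefl _ h1
      have h3 : bx (w1 0) y = bx (w 0) y := by
        rw [n1' y (T.S_sub hy) (by rw [hff y hy]; exact hε1), hL0 y hy]
      have h4 : 0 < s / B := by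
        have : s / B = s * B / (B * B) := by field_simp
        rw [this]; exact div_pos h1 (mul_self_pos.2 hB)
      have h5 : 0 < 1 - t + t * (s / B) := by
        rcases eq_or_lt_of_le ht.1 with h | h
        · rw [← h]; norm_num
        · have := mul_pos h h4
          linarith [ht.2]
      have h6 := (posDef_iff μ w y).1 (hw.posDef y)
        ![c 0 - c 1 * t * (s / B) * A, c 1 * (1 - t + t * (s / B)), c 2] (fun h0 => by
          have a0 : c 0 - c 1 * t * (s / B) * A = 0 := congrFun h0 0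
          have a1 : c 1 * (1 - t + t * (s / B)) = 0 := congrFun h0 1
          have a2 : c 2 = 0 := congrFun h0 2
          have a3 : c 1 = 0 := (mul_eq_zero.1 a1).resolve_right h5.ne'
          rw [a3] at a0
          apply hc
          funext i
          fin_cases i
          · simpa using a0
          · exact a3
          · exact a2)
      convert h6 using 2
      rw [Fin.sum_univ_three, Fin.sum_univ_three, h3, e11, e12, eL]
      ext v
      have e1 := DFunLike.congr_fun h2 v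
      simp only [ContinuousAlternatingMap.add_apply, ContinuousAlternatingMap.smul_apply,
        ContinuousAlternatingMap.sub_apply, smul_eq_mul, Matrix.cons_val_zero, Matrix.cons_val_one,
        Matrix.cons_val] at e1 ⊢
      rw [e1]
      field_simp
      ring)
  have e20 : w2 0 = w1 0 := m2'.2 0 (by decide)
  have e22 : w2 2 = w 2 := (m2'.2 2 (by decide)).trans e12
  set ε := min (min ε1 ε2) T.δ with hε
  have hε0 : 0 < ε := lt_min (lt_min hε1 hε2) T.δ_pos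
  set r := 4 * Real.sqrt ε with hrd
  have hr : 0 < r := by positivity
  have hr2 : r ^ 2 / 16 = ε := by rw [hrd, mul_pow, Real.sq_sqrt hε0.le]; ring
  have hrδ : r ^ 2 / 16 ≤ T.δ := by rw [hr2]; exact min_le_right _ _
  have he : ∀ y ∈ T.U, ff (T.Ψ y) < r ^ 2 / 16 → bx (w2 0) y = bx (pb2 T.Ψ (dd lam0)) y ∧
      bx (w2 1) y = s • bx (pb2 T.Ψ (dd lam1)) y := by
    intro y hy h
    rw [hr2] at h
    refine ⟨?_, ?_⟩
    · rw [e20]; exact n1' y hy (h.trans_le ((min_le_left _ _).trans (min_le_left _ _)))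
    · rw [← eL]; exact n2' y hy (h.trans_le ((min_le_left _ _).trans (min_le_right _ _)))
  obtain ⟨p0, p1, ph⟩ := std_chart hw m2'.1.hv e22 T.u_mem T.Ψu hu hr hs hrδ he
  obtain ⟨q0, q1, qh⟩ := std_chart hw m2'.1.hv e22 T.v_mem T.Ψv hv hr hs hrδ he
  have hO : ∀ (M : MC), ∀ z ∈ Nr r, z ∈ T.OM M := fun M z hz =>
    T.mem_OM M (((M.ff_lt hr).1 hz).trans_le hrδ)
  have hinj : ∀ (M M' : MC), ∀ z ∈ Nr r, ∀ z' ∈ Nr r, T.pM M z = T.pM M' z' → M.m z = M'.m z' := by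
    intro M M' z hz z' hz' h
    rw [← Tub.Ψ_pM (hO M z hz), h, Tub.Ψ_pM (hO M' z' hz')]
  refine ⟨w2, ⟨r, hr, s, hs, T.pM M1, T.pM M2,
    fun z hz => (Tub.pM_at (hO M1 z hz)).contMDiffWithinAt,
    fun z hz => (Tub.pM_at (hO M2 z hz)).contMDiffWithinAt,
    fun z hz z' hz' h => M1.inj (hinj _ _ z hz z' hz' h),
    fun z hz z' hz' h => M2.inj (hinj _ _ z hz z' hz' h),
    fun z hz => Tub.dp_bij (hO M1 z hz), fun z hz => Tub.dp_bij (hO M2 z hz),
    fun z hz h => congrArg T.Φ (M_glue h), fun z hz z' hz' h => ?_,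
    fun z hz a b => (p0 z hz a b).trans (one_mul _), fun z hz a b => (p1 z hz a b).trans (one_mul _),
    fun z hz a b => (q0 z hz a b).trans (neg_one_mul _),
    fun z hz a b => (q1 z hz a b).trans (neg_one_mul _), ph, qh⟩, m2'.1.hv,
    (Relation.ReflTransGen.single ⟨0, m1'⟩).tail ⟨1, m2'⟩, fun i => ?_, fun y hy i => ?_, ?_,
    fun z => ⟨Tub.pM_zero T.u_mem T.Ψu z, Tub.pM_zero T.v_mem T.Ψv z⟩⟩
  · have h1 := hinj _ _ z hz z' hz' h
    have h2 := M_sep h1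
    exact ⟨h2, (M2.inj ((M_glue h2).trans h1)).symm⟩
  · fin_cases i
    · show Exact fun x => w2 0 x - w 0 x
      rw [e20]; exact x1
    · show Exact fun x => w2 1 x - w 1 x
      rw [← e11]; exact x2
    · show Exact fun x => w2 2 x - w 2 x
      rw [e22]; simpa only [sub_self] using (exact_zero (X := X))
  · have hy' : y ∉ T.U := fun h => hy (T.U_sub h)
    fin_cases i
    · show w2 0 y = w 0 y
      rw [e20]; exact o1 y hy'
    · show w2 1 y = w 1 y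
      rw [← e11]; exact o2 y hy'
    · show w2 2 y = w 2 y
      rw [e22]
  · rintro y (⟨z, hz, rfl⟩ | ⟨z, hz, rfl⟩)
    · exact T.U_sub (Tub.pM_mem (hO M1 z hz))
    · exact T.U_sub (Tub.pM_mem (hO M2 z hz))

end Vale.Agent.P247S
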