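import Vale.Agent.P247S.B8

/-!
# P247, block S: straightening near finitely many disjoint spheres
-/

set_option linter.all false

open scoped ContDiff Topology Manifold
open Set Filter Complex

noncomputable section

namespace Vale.Agent.P247S
open Vale.Agent.P247X (om0 Nr EndF Sph Jw Std Chain Coh Cl4 STR_statement)
open Vale.Agent.P247.SCY Vale.Agent.P247.SCY.HS

section
variable {X : Type} [TopologicalSpace X] [ChartedSpace HS.E4 X]

theorem Jw_congr {w w' : Fin 3 → Form X 2} {y : X} (h : ∀ i, w' i y = w i y) :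
    Jw w' y = Jw w y := by
  unfold Jw Jf cx
  rw [h 0, h 1, h 2]

/-- transport of a sphere -/
def sphTr {w w' : Fin 3 → Form X 2} (S : Sph (Jw w)) (h : ∀ y ∈ S.set, ∀ i, w' i y = w i y) :
    Sph (Jw w') where
  u := S.u
  v := S.v
  u_smooth := S.u_smooth
  v_smooth := S.v_smooth
  glue := S.glue
  inj := S.inj
  inf := S.inf
  u_imm := S.u_imm
  v_imm := S.v_imm
  u_hol := fun z => by
    unfold P247X.JAt
    rw [Jw_congr (h _ ((mem_set S).2 (Or.inl ⟨z, rfl⟩)))]
    exact S.u_hol z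
  v_hol := fun z => by
    unfold P247X.JAt
    rw [Jw_congr (h _ ((mem_set S).2 (Or.inr ⟨z, rfl⟩)))]
    exact S.v_hol z

theorem sphTr_set {w w' : Fin 3 → Form X 2} (S : Sph (Jw w))
    (h : ∀ y ∈ S.set, ∀ i, w' i y = w i y) : (sphTr S h).set = S.set := by
  ext y
  rw [mem_set, mem_set]
  exact Iff.rfl

/-- transport of a standard neighbourhood -/
def stdTr {w w' : Fin 3 → Form X 2} (S : Std w) (h : ∀ y ∈ S.nb, ∀ i, w' i y = w i y) :
    Std w' where
  r := S.r
  r_pos := S.r_pos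
  s := S.s
  s_sq := S.s_sq
  p := S.p
  q := S.q
  p_smooth := S.p_smooth
  q_smooth := S.q_smooth
  p_inj := S.p_inj
  q_inj := S.q_inj
  p_imm := S.p_imm
  q_imm := S.q_imm
  glue := S.glue
  sep := S.sep
  p0 := fun z hz a b => by rw [h _ (Or.inl ⟨z, hz, rfl⟩)]; exact S.p0 z hz a b
  p1 := fun z hz a b => by rw [h _ (Or.inl ⟨z, hz, rfl⟩)]; exact S.p1 z hz a b
  q0 := fun z hz a b => by rw [h _ (Or.inr ⟨z, hz, rfl⟩)]; exact S.q0 z hz a b
  q1 := fun z hz a b => by rw [h _ (Or.inr ⟨z, hz, rfl⟩)]; exact S.q1 z hz a b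
  p_hol := fun z hz a => by rw [Jw_congr (h _ (Or.inl ⟨z, hz, rfl⟩))]; exact S.p_hol z hz a
  q_hol := fun z hz a => by rw [Jw_congr (h _ (Or.inr ⟨z, hz, rfl⟩))]; exact S.q_hol z hz a

theorem exists_disj_nhds [T2Space X] {n : ℕ} {K : Fin n → Set X} (hK : ∀ a, IsCompact (K a))
    (hd : ∀ a b, a ≠ b → Disjoint (K a) (K b)) : ∃ U : Fin n → Set X, (∀ a, IsOpen (U a)) ∧
      (∀ a, K a ⊆ U a) ∧ ∀ a b, a ≠ b → Disjoint (U a) (U b) := by
  have h : ∀ a b, ∃ V W : Set X, IsOpen V ∧ IsOpen W ∧ K a ⊆ V ∧ K b ⊆ W ∧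
      (a ≠ b → Disjoint V W) := by
    intro a b
    by_cases hab : a = b
    · exact ⟨univ, univ, isOpen_univ, isOpen_univ, subset_univ _, subset_univ _,
        fun h => absurd hab h⟩
    · obtain ⟨V, W, h1, h2, h3, h4, h5⟩ := SeparatedNhds.of_isCompact_isCompact (hK a) (hK b)
        (hd a b hab)
      exact ⟨V, W, h1, h2, h3, h4, fun _ => h5⟩
  choose V W h1 h2 h3 h4 h5 using h
  refine ⟨fun a => (⋂ b, V a b) ∩ ⋂ b, W b a, fun a => (isOpen_iInter_of_finite fun b =>
    h1 a b).inter (isOpen_iInter_of_finite fun b => h2 b a), fun a => subset_inter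
    (subset_iInter fun b => h3 a b) (subset_iInter fun b => h4 b a), fun a b hab => ?_⟩
  exact (h5 a b hab).mono (inter_subset_left.trans (iInter_subset _ b))
    (inter_subset_right.trans (iInter_subset _ a))

theorem exact_self (α : Form X 2) : Exact fun x => α x - α x := by
  have : (fun x => α x - α x : Form X 2) = fun _ => 0 := funext fun x => sub_self _
  rw [this]; exact exact_zero

theorem exact_trans {α β γ : Form X 2} (h : Exact fun x => α x - β x)
    (h' : Exact fun x => β x - γ x) : Exact fun x => α x - γ x := by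
  have : (fun x => α x - γ x : Form X 2) = fun x => (α x - β x) + (β x - γ x) :=
    funext fun x => (sub_add_sub_cancel _ _ _).symm
  rw [this]; exact exact_add h h'

variable [IsManifold (𝓡 4) ∞ X] [T2Space X] [CompactSpace X]

theorem str_ind {μ : Form X 4} (hμ : Volume μ) {w : Fin 3 → Form X 2} (hw : Hypersymplectic μ w)
    {n : ℕ} (δ : Fin n → Sph (Jw w)) {U : Fin n → Set X} (hU : ∀ a, IsOpen (U a))
    (hSU : ∀ a, (δ a).set ⊆ U a) (hUd : ∀ a b, a ≠ b → Disjoint (U a) (U b)) (s : Finset (Fin n)) :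
    ∃ w' : Fin 3 → Form X 2, Hypersymplectic μ w' ∧ Chain μ w w' ∧
      (∀ i, Exact fun x => w' i x - w i x) ∧ (∀ y, (∀ a ∈ s, y ∉ U a) → ∀ i, w' i y = w i y) ∧
      ∀ a ∈ s, ∃ St : Std w', St.nb ⊆ U a ∧ ∀ z, St.p (0, z) = (δ a).u z ∧
        St.q (0, z) = (δ a).v z := by
  induction s using Finset.induction_on with
  | empty =>
    exact ⟨w, hw, Relation.ReflTransGen.refl, fun i => exact_self _, fun _ _ _ => rfl,
      fun a ha => absurd ha (Finset.notMem_empty a)⟩
  | insert b s hb ih =>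
    obtain ⟨w1, h1, h2, h3, h4, h5⟩ := ih
    have hne : ∀ a ∈ s, a ≠ b := fun a ha h => hb (h ▸ ha)
    have hc : ∀ y ∈ (δ b).set, ∀ i, w1 i y = w i y := fun y hy => h4 y fun a ha h =>
      Set.disjoint_left.1 (hUd a b (hne a ha)) h (hSU b hy)
    have hs : (sphTr (δ b) hc).set ⊆ U b := by rw [sphTr_set]; exact hSU b
    obtain ⟨w2, St, k1, k2, k3, k4, k5, k6⟩ := one_sphere hμ h1 (sphTr (δ b) hc) (hU b) hs
    refine ⟨w2, k1, h2.trans k2, fun i => exact_trans (k3 i) (h3 i), fun y hy i => ?_,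
      fun a ha => ?_⟩
    · exact (k4 y (hy b (Finset.mem_insert_self _ _)) i).trans
        (h4 y (fun a ha => hy a (Finset.mem_insert_of_mem ha)) i)
    · rcases Finset.mem_insert.1 ha with rfl | ha
      · exact ⟨St, k5, k6⟩
      · obtain ⟨St', j1, j2⟩ := h5 a ha
        exact ⟨stdTr St' fun y hy => k4 y
          (Set.disjoint_left.1 (hUd a b (hne a ha)) (j1 hy)), j1, j2⟩

end

/-- block S -/
theorem str : STR_statement := by
  intro X _ μ hμ w hw n δ hd
  obtain ⟨U, hU, hSU, hUd⟩ := exists_disj_nhds (fun a => set_compact (δ a)) hd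
  obtain ⟨w', h1, h2, h3, -, h5⟩ := str_ind hμ hw δ hU hSU hUd Finset.univ
  choose St h6 h7 using fun a => h5 a (Finset.mem_univ a)
  exact ⟨w', St, h1, h2, h3, fun a b hab => (hUd a b hab).mono (h6 a) (h6 b), h7⟩

end Vale.Agent.P247S
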